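import Vale.Agent.P218TB.Ball
import Vale.Agent.P218GE.SD
import Vale.Agent.P218ST.Defs

/-! # P218, block TB: the signed distance function of a level set with the ball condition -/

open Set Filter Topology Metric
open scoped RealInnerProductSpace ContDiff

namespace Vale.Agent.P218TB

open Vale.Agent.P218GE (nor inner_grad norm_grad cdAt_grad trunc trunc_small trunc_big
  lt_of_abs_trunc_lt trunc_pos_iff trunc_neg_iff trunc_eq_zero contDiff_trunc)
open Vale.Agent.P218.H63 (lap IsTubeShrinker)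

variable {E : Type} [NormedAddCommGroup E] [InnerProductSpace ℝ E] [FiniteDimensional ℝ E]

/-- `y = (p, t)` is a foot point of `x` and the height of `x` over it -/
def IsFoot (Φ : E → ℝ) (ρ : ℝ) (x : E) (y : E × ℝ) : Prop :=
  Φ y.1 = 0 ∧ |y.2| < ρ ∧ y.1 + y.2 • nor Φ y.1 = x

/-- the foot point and the height -/
noncomputable def foot (Φ : E → ℝ) (ρ : ℝ) (x : E) : E × ℝ := Classical.epsilon (IsFoot Φ ρ x)

/-- the tube of radius `ρ` -/
def tube (Φ : E → ℝ) (ρ : ℝ) : Set E := {x | ∃ y, IsFoot Φ ρ x y}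

variable {Φ : E → ℝ} {K ρ : ℝ}

lemma foot_spec {x : E} (hx : x ∈ tube Φ ρ) : IsFoot Φ ρ x (foot Φ ρ x) :=
  Classical.epsilon_spec hx

lemma IsBall.small (h : IsBall Φ K) (hρ : K * ρ ≤ 1 / 8) {t : ℝ} (ht : |t| < ρ) :
    K * |t| < 1 / 8 :=
  (mul_lt_mul_of_pos_left ht h.Kpos).trans_le hρ

lemma IsBall.foot_eq (h : IsBall Φ K) (hρ : K * ρ ≤ 1 / 8) {x : E} {y : E × ℝ}
    (hy : IsFoot Φ ρ x y) : foot Φ ρ x = y := by
  obtain ⟨h1, h2, h3⟩ := foot_spec (ρ := ρ) ⟨y, hy⟩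
  have := h.foot_unique h1 hy.1 (by linarith [h.small hρ h2]) (by linarith [h.small hρ hy.2.1])
    (h3.trans hy.2.2.symm)
  exact Prod.ext this.1 this.2

lemma inner_dnor {p : E} (hc : ContDiffAt ℝ 2 Φ p) (hg : gradient Φ p ≠ 0) (v : E) :
    ⟪nor Φ p, fderiv ℝ (nor Φ) p v⟫ = 0 := by
  have hd := ((cdAt_nor (n := 1) hc (by norm_num) hg).differentiableAt one_ne_zero).hasFDerivAt
  have h1 : ∀ᶠ q in 𝓝 p, ⟪nor Φ q, nor Φ q⟫ = (1 : ℝ) := by
    filter_upwards [(cdAt_grad (n := 1) hc (by norm_num)).continuousAt.eventually_ne hg] with q hq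
    rw [real_inner_self_eq_norm_sq, norm_nor hq, one_pow]
  have h2 := (hd.inner ℝ hd).unique ((hasFDerivAt_const (1 : ℝ) p).congr_of_eventuallyEq h1)
  have h3 := congrArg (fun L : E →L[ℝ] ℝ => L v) h2
  simp only [ContinuousLinearMap.comp_apply, ContinuousLinearMap.prod_apply, fderivInnerCLM_apply,
    zero_apply] at h3
  rw [real_inner_comm (nor Φ p)] at h3
  linarith

/-- the foot point map is smooth and the tube is open -/
lemma IsBall.smooth_foot (h : IsBall Φ K) (hs : ContDiff ℝ ∞ Φ) (hρ : K * ρ ≤ 1 / 8) {x : E}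
    (hx : x ∈ tube Φ ρ) : ContDiffAt ℝ ∞ (foot Φ ρ) x ∧ ∀ᶠ z in 𝓝 x, z ∈ tube Φ ρ := by
  obtain ⟨⟨p, t⟩, hp, ht, he⟩ := hx
  simp only at hp ht he
  have hN : ContDiffAt ℝ ∞ (nor Φ) p := cdAt_nor hs.contDiffAt (by simp) (h.ne p hp)
  set F : E × E × ℝ → E × ℝ := fun v => (v.2.1 + v.2.2 • nor Φ v.2.1 - v.1, Φ v.2.1) with hF
  have hN' : ContDiffAt ℝ ∞ (fun v : E × E × ℝ => nor Φ v.2.1) (x, p, t) :=
    ContDiffAt.comp (g := nor Φ) _ hN (by fun_prop)
  have hFc : ContDiffAt ℝ ∞ F (x, p, t) :=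
    (((by fun_prop : ContDiffAt ℝ ∞ (fun v : E × E × ℝ => v.2.1) (x, p, t)).add
      ((by fun_prop : ContDiffAt ℝ ∞ (fun v : E × E × ℝ => v.2.2) (x, p, t)).smul hN')).sub
      contDiffAt_fst).prodMk (hs.contDiffAt.comp _ (by fun_prop))
  have hF0 : F (x, p, t) = 0 := by simp [hF, he, hp]
  set A := fderiv ℝ F (x, p, t) ∘L ContinuousLinearMap.inr ℝ E (E × ℝ) with hA
  have hA1 : HasFDerivAt (fun y : E × ℝ => F (x, y)) A (p, t) :=
    HasFDerivAt.comp (g := F) _ (hFc.differentiableAt (by simp)).hasFDerivAt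
      (hasFDerivAt_prodMk_right x (p, t))
  have hNd := (hN.differentiableAt (by simp)).hasFDerivAt
  have hA2 := ((((hasFDerivAt_fst (𝕜 := ℝ) (p := ((p, t) : E × ℝ))).add
    ((hasFDerivAt_snd (𝕜 := ℝ) (p := ((p, t) : E × ℝ))).smul
      (HasFDerivAt.comp (g := nor Φ) ((p, t) : E × ℝ) hNd hasFDerivAt_fst))).sub_const x).prodMk
      (HasFDerivAt.comp (g := Φ) ((p, t) : E × ℝ) (h.diffAt hp).hasFDerivAt hasFDerivAt_fst))
  have hA3 : ∀ v τ, A (v, τ) = (v + (t • fderiv ℝ (nor Φ) p v + τ • nor Φ p), fderiv ℝ Φ p v) := by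
    intro v τ
    rw [hA1.unique hA2]
    simp
  have hinj : Function.Injective A := by
    rw [injective_iff_map_eq_zero]
    rintro ⟨v, τ⟩ hv
    rw [hA3, Prod.mk_eq_zero] at hv
    have h1 := congrArg (fun u => ⟪nor Φ p, u⟫) hv.1
    simp only [inner_add_right, real_inner_smul_right, inner_dnor (h.cd p hp) (h.ne p hp),
      inner_nor p v, hv.2, real_inner_self_eq_norm_sq, norm_nor (h.ne p hp), inner_zero_right]
      at h1
    have h2 : τ = 0 := by linarith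
    have h3 : v = -(t • fderiv ℝ (nor Φ) p v) := by
      have := hv.1
      rw [h2, zero_smul, add_zero] at this
      exact eq_neg_of_add_eq_zero_left this
    have h4 : ‖v‖ ≤ |t| * (4 * K * ‖v‖) := by
      conv_lhs => rw [h3, norm_neg, norm_smul, Real.norm_eq_abs]
      gcongr
      exact h.norm_dnor hp hv.2
    have h5 : ‖v‖ ≤ 0 := by nlinarith [h.small hρ ht, norm_nonneg v]
    rw [h2, norm_le_zero_iff.1 h5]; rfl
  have hinv : A.IsInvertible :=
    ⟨(LinearEquiv.ofInjectiveEndo A.toLinearMap hinj).toContinuousLinearEquiv, by ext <;> simp⟩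
  have hn : (∞ : WithTop ℕ∞) ≠ 0 := by simp
  set ψ := hFc.implicitFunction hn hinv with hψ
  have hψc : ContDiffAt ℝ ∞ ψ x := hFc.contDiffAt_implicitFunction hn hinv
  have hψ0 : ψ x = (p, t) := hFc.implicitFunction_apply_self hn hinv
  have hψe : ∀ᶠ z in 𝓝 x, F (z, ψ z) = F (x, p, t) := hFc.eventually_apply_implicitFunction hn hinv
  have h1 : ∀ᶠ z in 𝓝 x, |(ψ z).2| < ρ :=
    hψc.continuousAt.snd.abs.eventually_lt continuousAt_const (by simpa [hψ0] using ht)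
  have h2 : ∀ᶠ z in 𝓝 x, IsFoot Φ ρ z (ψ z) := by
    filter_upwards [hψe, h1] with z hz hz1
    rw [hF0, hF, Prod.mk_eq_zero, sub_eq_zero] at hz
    exact ⟨hz.2, hz1, hz.1⟩
  refine ⟨hψc.congr_of_eventuallyEq ?_, h2.mono fun z hz => ⟨_, hz⟩⟩
  filter_upwards [h2] with z hz using h.foot_eq hρ hz

/-- the gradient of the height is the normal at the foot point -/
lemma IsBall.dfoot (h : IsBall Φ K) (hs : ContDiff ℝ ∞ Φ) (hρ : K * ρ ≤ 1 / 8) {x : E}
    (hx : x ∈ tube Φ ρ) (v : E) :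
    (fderiv ℝ (foot Φ ρ) x v).2 = ⟪nor Φ (foot Φ ρ x).1, v⟫ ∧
      fderiv ℝ Φ (foot Φ ρ x).1 (fderiv ℝ (foot Φ ρ) x v).1 = 0 ∧
      (fderiv ℝ (foot Φ ρ) x v).1 + ((foot Φ ρ x).2 • fderiv ℝ (nor Φ) (foot Φ ρ x).1
        (fderiv ℝ (foot Φ ρ) x v).1 + (fderiv ℝ (foot Φ ρ) x v).2 • nor Φ (foot Φ ρ x).1) = v := by
  obtain ⟨h1, h2⟩ := h.smooth_foot hs hρ hx
  have hd := (h1.differentiableAt (by simp)).hasFDerivAt
  have hp := (foot_spec hx).1
  have e1 := (HasFDerivAt.comp (g := Φ) x (h.diffAt hp).hasFDerivAt hd.fst).unique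
    ((hasFDerivAt_const (0 : ℝ) x).congr_of_eventuallyEq (h2.mono fun z hz => (foot_spec hz).1))
  have e2 := (hd.fst.add (hd.snd.smul
    (HasFDerivAt.comp (g := nor Φ) x (h.diffAt_nor hp).hasFDerivAt hd.fst))).unique
    ((hasFDerivAt_id x).congr_of_eventuallyEq (h2.mono fun z hz => (foot_spec hz).2.2))
  have e3 : fderiv ℝ Φ (foot Φ ρ x).1 (fderiv ℝ (foot Φ ρ) x v).1 = 0 := by
    simpa using congrArg (fun L : E →L[ℝ] ℝ => L v) e1
  have e4 : (fderiv ℝ (foot Φ ρ) x v).1 + ((foot Φ ρ x).2 • fderiv ℝ (nor Φ) (foot Φ ρ x).1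
      (fderiv ℝ (foot Φ ρ) x v).1 + (fderiv ℝ (foot Φ ρ) x v).2 • nor Φ (foot Φ ρ x).1) = v := by
    simpa using congrArg (fun L : E →L[ℝ] E => L v) e2
  refine ⟨?_, e3, e4⟩
  conv_rhs => rw [← e4]
  simp only [inner_add_right, real_inner_smul_right, inner_dnor (h.cd _ hp) (h.ne _ hp),
    inner_nor _ (fderiv ℝ (foot Φ ρ) x v).1, e3, real_inner_self_eq_norm_sq, norm_nor (h.ne _ hp)]
  ring

lemma IsBall.grad_ht (h : IsBall Φ K) (hs : ContDiff ℝ ∞ Φ) (hρ : K * ρ ≤ 1 / 8) {x : E}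
    (hx : x ∈ tube Φ ρ) : gradient (fun z => (foot Φ ρ z).2) x = nor Φ (foot Φ ρ x).1 := by
  have hd := ((h.smooth_foot hs hρ hx).1.differentiableAt (by simp)).hasFDerivAt
  refine ext_inner_right ℝ fun v => ?_
  rw [inner_grad, hd.snd.fderiv, ← (h.dfoot hs hρ hx v).1]
  rfl

lemma IsBall.hess_ht (h : IsBall Φ K) (hs : ContDiff ℝ ∞ Φ) (hρ : K * ρ ≤ 1 / 8) {x : E}
    (hx : x ∈ tube Φ ρ) (v : E) : fderiv ℝ (gradient fun z => (foot Φ ρ z).2) x v
      = fderiv ℝ (nor Φ) (foot Φ ρ x).1 (fderiv ℝ (foot Φ ρ) x v).1 := by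
  obtain ⟨h1, h2⟩ := h.smooth_foot hs hρ hx
  have hd := (h1.differentiableAt (by simp)).hasFDerivAt
  have e : gradient (fun z => (foot Φ ρ z).2) =ᶠ[𝓝 x] fun z => nor Φ (foot Φ ρ z).1 :=
    h2.mono fun z hz => h.grad_ht hs hρ hz
  rw [e.fderiv_eq]
  exact congrArg (fun L : E →L[ℝ] E => L v) (HasFDerivAt.comp (g := nor Φ) x
    (h.diffAt_nor (foot_spec hx).1).hasFDerivAt hd.fst).fderiv

lemma IsBall.norm_hess_ht (h : IsBall Φ K) (hs : ContDiff ℝ ∞ Φ) (hρ : K * ρ ≤ 1 / 8) {x : E}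
    (hx : x ∈ tube Φ ρ) : ‖fderiv ℝ (gradient fun z => (foot Φ ρ z).2) x‖ ≤ 8 * K := by
  have hK := h.Kpos
  refine ContinuousLinearMap.opNorm_le_bound _ (by positivity) fun v => ?_
  obtain ⟨e1, e2, e3⟩ := h.dfoot hs hρ hx v
  obtain ⟨hp, ht, -⟩ := foot_spec hx
  rw [h.hess_ht hs hρ hx]
  set u := (fderiv ℝ (foot Φ ρ) x v).1
  set N := nor Φ (foot Φ ρ x).1
  set D := fderiv ℝ (nor Φ) (foot Φ ρ x).1 u
  set t := (foot Φ ρ x).2
  have h1 : ‖D‖ ≤ 4 * K * ‖u‖ := h.norm_dnor hp e2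
  have h2 : ⟪u, N⟫ = 0 := by rw [real_inner_comm, inner_nor, e2, mul_zero]
  have h3 : ⟪u, v⟫ = ‖u‖ ^ 2 + t * ⟪u, D⟫ := by
    conv_lhs => rw [← e3]
    rw [inner_add_right, inner_add_right, real_inner_smul_right, real_inner_smul_right, h2,
      real_inner_self_eq_norm_sq]
    ring
  have h4 : |t * ⟪u, D⟫| ≤ 1 / 2 * ‖u‖ ^ 2 := by
    rw [abs_mul]
    calc |t| * |⟪u, D⟫| ≤ |t| * (‖u‖ * (4 * K * ‖u‖)) := by
          gcongr; exact (abs_real_inner_le_norm _ _).trans (by gcongr)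
      _ = 4 * (K * |t|) * ‖u‖ ^ 2 := by ring
      _ ≤ 4 * (1 / 8) * ‖u‖ ^ 2 := by gcongr; exact (h.small hρ ht).le
      _ = _ := by ring
  have h5 : ‖u‖ * ‖u‖ ≤ ‖u‖ * (2 * ‖v‖) := by
    nlinarith [real_inner_le_norm u v, neg_abs_le (t * ⟪u, D⟫)]
  have h6 : ‖u‖ ≤ 2 * ‖v‖ := by
    rcases (norm_nonneg u).eq_or_lt with h0 | h0
    · rw [← h0]; positivity
    · exact le_of_mul_le_mul_left h5 h0
  calc ‖D‖ ≤ 4 * K * (2 * ‖v‖) := h1.trans (by gcongr)
    _ = _ := by ring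

/-- the derivative of the unit normal -/
lemma fderiv_nor {p : E} (hc : ContDiffAt ℝ 2 Φ p) (hg : gradient Φ p ≠ 0) (v : E) :
    fderiv ℝ (nor Φ) p v = ‖gradient Φ p‖⁻¹ • (fderiv ℝ (gradient Φ) p v
      - ⟪nor Φ p, fderiv ℝ (gradient Φ) p v⟫ • nor Φ p) := by
  have hgd := (cdAt_grad (n := 1) hc (by norm_num)).differentiableAt one_ne_zero
  have hnd := ((cdAt_nor (n := 1) hc (by norm_num) hg).differentiableAt one_ne_zero).hasFDerivAt
  have hl := (hgd.norm ℝ hg).hasFDerivAt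
  have e : gradient Φ =ᶠ[𝓝 p] fun q => ‖gradient Φ q‖ • nor Φ q := by
    filter_upwards [hgd.continuousAt.eventually_ne hg] with q hq using grad_eq hq
  have h1 : fderiv ℝ (gradient Φ) p v = ‖gradient Φ p‖ • fderiv ℝ (nor Φ) p v
      + fderiv ℝ (fun q => ‖gradient Φ q‖) p v • nor Φ p := by
    rw [e.fderiv_eq, (hl.fun_smul hnd).fderiv]
    simp
  have hg' : ‖gradient Φ p‖ ≠ 0 := norm_ne_zero_iff.2 hg
  rw [h1, inner_add_right, real_inner_smul_right, real_inner_smul_right, inner_dnor hc hg,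
    real_inner_self_eq_norm_sq, norm_nor hg]
  simp [smul_smul, inv_mul_cancel₀ hg']

lemma mem_tube {x : E} (hρ : 0 < ρ) (hx : Φ x = 0) : IsFoot Φ ρ x (x, 0) :=
  ⟨hx, by simpa using hρ, by simp⟩

/-- the mean curvature -/
lemma IsBall.lap_ht (h : IsBall Φ K) (hs : ContDiff ℝ ∞ Φ) (hρ : K * ρ ≤ 1 / 8) (hρ0 : 0 < ρ)
    {x : E} (hx : Φ x = 0) : ‖gradient Φ x‖ ^ 3 * lap (fun z => (foot Φ ρ z).2) x
      = ‖gradient Φ x‖ ^ 2 * lap Φ x
        - ⟪fderiv ℝ (gradient Φ) x (gradient Φ x), gradient Φ x⟫ := by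
  have hm : x ∈ tube Φ ρ := ⟨_, mem_tube hρ0 hx⟩
  have hf := h.foot_eq hρ (mem_tube hρ0 hx)
  have hg := h.ne x hx
  set N := nor Φ x with hN
  set H := fderiv ℝ (gradient Φ) x with hH
  set l := ‖gradient Φ x‖ with hl
  have hl0 : l ≠ 0 := norm_ne_zero_iff.2 hg
  have hNN : ⟪N, N⟫ = (1 : ℝ) := by rw [real_inner_self_eq_norm_sq, norm_nor hg, one_pow]
  have e1 : ∀ v, fderiv ℝ (gradient fun z => (foot Φ ρ z).2) x v
      = l⁻¹ • (H v - ⟪N, H v⟫ • N - ⟪N, v⟫ • (H N - ⟪N, H N⟫ • N)) := fun v => by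
    obtain ⟨a1, -, a3⟩ := h.dfoot hs hρ hm v
    rw [h.hess_ht hs hρ hm]
    rw [a1] at a3
    simp only [hf, zero_smul, zero_add] at a3 ⊢
    rw [eq_sub_of_add_eq a3, map_sub, map_smul, fderiv_nor (h.cd x hx) hg,
      fderiv_nor (h.cd x hx) hg, smul_comm, ← smul_sub]
  have e2 : (fderiv ℝ (gradient fun z => (foot Φ ρ z).2) x).toLinearMap
      = l⁻¹ • (H.toLinearMap - ((innerSL ℝ N).comp H).toLinearMap.smulRight N
        - (innerSL ℝ N).toLinearMap.smulRight (H N - ⟪N, H N⟫ • N)) := by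
    ext v
    simp [e1]
  have e3 : gradient Φ x = l • N := grad_eq hg
  rw [lap, e2, map_smul, map_sub, map_sub, LinearMap.trace_smulRight, LinearMap.trace_smulRight,
    lap, e3, map_smul, real_inner_smul_left, real_inner_smul_right, real_inner_comm N (H N)]
  simp only [ContinuousLinearMap.coe_coe, ContinuousLinearMap.comp_apply, innerSL_apply_apply,
    inner_sub_right, real_inner_smul_right, hNN, smul_eq_mul]
  field_simp
  ring

/-- away from the tube there is no foot point at a smaller height -/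
lemma IsBall.far (h : IsBall Φ K) {b : ℝ} (hb : b < ρ) {x : E} (hx : x ∉ tube Φ ρ) :
    ∀ᶠ z in 𝓝 x, ∀ y, IsFoot Φ ρ z y → b < |y.2| := by
  set D : Set (E × ℝ) := (closedBall x (b + 1) ∩ {p | Φ p = 0}) ×ˢ Icc (-b) b with hD
  have hDc : IsCompact D :=
    ((isCompact_closedBall x _).inter_right (isClosed_eq h.cont continuous_const)).prod
      isCompact_Icc
  have hG : ContinuousOn (fun y : E × ℝ => y.1 + y.2 • nor Φ y.1) D := fun y hy =>
    (continuousAt_fst.add (continuousAt_snd.smul (ContinuousAt.comp (g := nor Φ)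
      (h.diffAt_nor hy.1.2).continuousAt continuousAt_fst))).continuousWithinAt
  have h1 : x ∉ (fun y : E × ℝ => y.1 + y.2 • nor Φ y.1) '' D := by
    rintro ⟨y, hy, e⟩
    exact hx ⟨y, hy.1.2, (abs_le.2 hy.2).trans_lt hb, e⟩
  filter_upwards [(hDc.image_of_continuousOn hG).isClosed.isOpen_compl.mem_nhds h1,
    ball_mem_nhds x one_pos] with z hz hz1 y hy
  by_contra hc
  rw [not_lt] at hc
  refine hz ⟨y, ⟨⟨?_, hy.1⟩, abs_le.1 hc⟩, hy.2.2⟩
  have e : y.1 - x = (z - x) - y.2 • nor Φ y.1 := by rw [← hy.2.2]; abel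
  rw [mem_ball, dist_eq_norm] at hz1
  rw [mem_closedBall, dist_eq_norm, e]
  refine (norm_sub_le _ _).trans ?_
  rw [norm_smul, norm_nor (h.ne _ hy.1), Real.norm_eq_abs]
  linarith

open Classical in
/-- the truncated signed distance function -/
noncomputable def sd (Φ : E → ℝ) (ρ : ℝ) {b : ℝ} (hb : 0 < b) (x : E) : ℝ :=
  if x ∈ tube Φ ρ then trunc hb (foot Φ ρ x).2 else b * Real.sign (Φ x)

/-- **Ball condition implies uniform tube.** -/
theorem IsBall.exists_tube (h : IsBall Φ K) (hs : ContDiff ℝ ∞ Φ) :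
    ∃ w : E → ℝ, ContDiff ℝ ∞ w ∧ (∀ x, Real.sign (w x) = Real.sign (Φ x)) ∧
      (∀ x, |w x| < 1 / (32 * K) → ‖gradient w x‖ = 1 ∧ ‖fderiv ℝ (gradient w) x‖ ≤ 8 * K) ∧
      ∀ x, Φ x = 0 → gradient w x = nor Φ x ∧ ‖gradient Φ x‖ ^ 3 * lap w x
        = ‖gradient Φ x‖ ^ 2 * lap Φ x
          - ⟪fderiv ℝ (gradient Φ) x (gradient Φ x), gradient Φ x⟫ := by
  have hK := h.Kpos
  set ρ := 1 / (8 * K) with hρ'
  have hρ0 : 0 < ρ := by positivity
  have hρ : K * ρ ≤ 1 / 8 := le_of_eq (by rw [hρ']; field_simp)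
  have hb : 0 < ρ / 2 := half_pos hρ0
  have hsg : ∀ z ∈ tube Φ ρ, Real.sign (Φ z) = Real.sign (foot Φ ρ z).2 := fun z hz => by
    obtain ⟨h1, h2, h3⟩ := foot_spec hz
    conv_lhs => rw [← h3]
    exact h.sign_foot h1 (by linarith [h.small hρ h2])
  have hne : ∀ z, z ∉ tube Φ ρ → Φ z ≠ 0 := fun z hz h0 => hz ⟨_, mem_tube hρ0 h0⟩
  have hsm : ContDiff ℝ ∞ (sd Φ ρ hb) := by
    refine contDiff_iff_contDiffAt.2 fun x => ?_
    by_cases hx : x ∈ tube Φ ρ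
    · obtain ⟨h1, h2⟩ := h.smooth_foot hs hρ hx
      refine ((contDiff_trunc hb (k := ⊤)).contDiffAt.comp x h1.snd).congr_of_eventuallyEq ?_
      filter_upwards [h2] with z hz
      rw [sd, if_pos hz]; rfl
    · refine (contDiffAt_const (c := ρ / 2 * Real.sign (Φ x))).congr_of_eventuallyEq ?_
      have h1 : ∀ᶠ z in 𝓝 x, Real.sign (Φ z) = Real.sign (Φ x) := by
        rcases lt_or_gt_of_ne (hne x hx) with h0 | h0
        · filter_upwards [h.cont.continuousAt.eventually_lt continuousAt_const h0] with z hz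
          rw [Real.sign_of_neg hz, Real.sign_of_neg h0]
        · filter_upwards [continuousAt_const.eventually_lt h.cont.continuousAt h0] with z hz
          rw [Real.sign_of_pos hz, Real.sign_of_pos h0]
      filter_upwards [h1, h.far (half_lt_self hρ0) hx] with z hz hz'
      rw [sd, ← hz]
      split_ifs with hzt
      · rw [trunc_big hb (hz' _ (foot_spec hzt)).le, hsg z hzt]
      · rfl
  have key : ∀ z, |sd Φ ρ hb z| < ρ / 2 / 2 → z ∈ tube Φ ρ ∧ sd Φ ρ hb z = (foot Φ ρ z).2 := by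
    intro z hz
    unfold sd at hz ⊢
    split_ifs at hz ⊢ with hzt
    · exact ⟨hzt, trunc_small hb (lt_of_abs_trunc_lt hb hz).le⟩
    · exfalso
      rw [abs_mul, abs_of_pos hb] at hz
      rcases Real.sign_apply_eq_of_ne_zero _ (hne z hzt) with h4 | h4 <;> rw [h4] at hz <;>
        simp at hz <;> linarith
  have key' : ∀ x, |sd Φ ρ hb x| < ρ / 2 / 2 →
      gradient (sd Φ ρ hb) =ᶠ[𝓝 x] gradient fun z => (foot Φ ρ z).2 := fun x hx => by
    have h1 : sd Φ ρ hb =ᶠ[𝓝 x] fun z => (foot Φ ρ z).2 := by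
      filter_upwards [hsm.continuous.abs.continuousAt.eventually_lt continuousAt_const hx] with z hz
      exact (key z hz).2
    filter_upwards [h1.fderiv (𝕜 := ℝ)] with z hz
    rw [gradient, gradient, hz]
  have hsign : ∀ x, Real.sign (sd Φ ρ hb x) = Real.sign (Φ x) := fun x => by
    unfold sd
    split_ifs with hx
    · rw [hsg x hx]
      rcases lt_trichotomy (foot Φ ρ x).2 0 with h0 | h0 | h0
      · rw [Real.sign_of_neg h0, Real.sign_of_neg ((trunc_neg_iff hb).2 h0)]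
      · rw [h0, (trunc_eq_zero hb).2 rfl]
      · rw [Real.sign_of_pos h0, Real.sign_of_pos ((trunc_pos_iff hb).2 h0)]
    · rcases lt_or_gt_of_ne (hne x hx) with h0 | h0
      · rw [Real.sign_of_neg h0, Real.sign_of_neg (by linarith)]
      · rw [Real.sign_of_pos h0, Real.sign_of_pos (by linarith)]
  refine ⟨sd Φ ρ hb, hsm, hsign, fun x hx => ?_, fun x hx => ?_⟩
  · have hx' : |sd Φ ρ hb x| < ρ / 2 / 2 := by
      convert hx using 1; rw [hρ']; field_simp; norm_num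
    have ht := (key x hx').1
    rw [(key' x hx').eq_of_nhds, (key' x hx').fderiv_eq, h.grad_ht hs hρ ht]
    exact ⟨norm_nor (h.ne _ (foot_spec ht).1), h.norm_hess_ht hs hρ ht⟩
  · have h0 : sd Φ ρ hb x = 0 := by
      rw [← Real.sign_eq_zero_iff, hsign, hx, Real.sign_zero]
    have hx' : |sd Φ ρ hb x| < ρ / 2 / 2 := by rw [h0, abs_zero]; positivity
    refine ⟨?_, ?_⟩
    · rw [(key' x hx').eq_of_nhds, h.grad_ht hs hρ (key x hx').1, h.foot_eq hρ (mem_tube hρ0 hx)]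
    · rw [← h.lap_ht hs hρ hρ0 hx, lap, lap, (key' x hx').fderiv_eq]

open Vale.Agent.P218ST Vale.Agent.P218GA in
/-- a smooth self-shrinker with the two-sided ball condition has a uniform tube -/
theorem tube_of_ball {S : Set E3} {Φ : E3 → ℝ} (h : IsSmoothShrinker S Φ) {K : ℝ}
    (hK : ∀ p ∈ S, ∀ q ∈ S, |⟪nor Φ p, q - p⟫| ≤ K * ‖q - p‖ ^ 2) :
    ∃ (w : E3 → ℝ) (δ C : ℝ), IsTubeShrinker S w δ C ∧ ContDiff ℝ ∞ w := by
  have hB : IsBall Φ (max K 1) := ⟨by positivity, h.smooth.continuous,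
    fun p _ => h.smooth.contDiffAt.of_le (WithTop.coe_le_coe.2 (le_top : (2 : ℕ∞) ≤ ⊤)),
    fun p hp => h.grad_ne p ((h.mem_iff p).2 hp), fun p q hp hq =>
      (hK p ((h.mem_iff p).2 hp) q ((h.mem_iff q).2 hq)).trans (by gcongr; exact le_max_left _ _)⟩
  obtain ⟨w, h1, h2, h3, h4⟩ := hB.exists_tube h.smooth
  refine ⟨w, 1 / (32 * max K 1), 8 * max K 1, ⟨by positivity,
    h1.of_le (WithTop.coe_le_coe.2 (le_top : (3 : ℕ∞) ≤ ⊤)), fun x => ?_, fun x hx => (h3 x hx).1,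
    fun x hx => (h3 x hx).2, fun x hx => ?_⟩, h1⟩
  · rw [h.mem_iff, ← Real.sign_eq_zero_iff, ← h2, Real.sign_eq_zero_iff]
  · obtain ⟨e1, e2⟩ := h4 x ((h.mem_iff x).1 hx)
    have hg : ‖gradient Φ x‖ ≠ 0 := norm_ne_zero_iff.2 (h.grad_ne x hx)
    rw [h.shrinker x hx] at e2
    rw [e1, nor, real_inner_smul_right]
    field_simp at e2 ⊢
    linarith

end Vale.Agent.P218TB
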