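import Vale.Agent.P218TB.EndBall
import Vale.Agent.P218TB.Tube

/-! # P218, block TB: a smooth shrinker with cylindrical and conical ends has a uniform tube -/

open Set Filter Topology Metric
open scoped RealInnerProductSpace ContDiff

namespace Vale.Agent.P218TB

open Vale.Agent.P218UA Vale.Agent.P218UG Vale.Agent.P218ST
open Vale.Agent.P218GA (CylEnd ConeEnd Link SmoothLim HasCylConeEnds)
open Vale.Agent.P218GE (PB Bd nor inner_grad norm_unit_sub_le cdAt_grad)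
open Vale.Agent.P218.H63 (IsTubeShrinker)

variable {Φ : E3 → ℝ}

lemma cone_pt (B : ConeEnd) (r θ : ℝ) :
    B.pt r θ = r • lp B.toLink θ (B.u (Real.log r, θ)) := rfl

lemma lp_sub (L : Link) (θ a : ℝ) :
    lp L θ a - L.γ θ = (Real.cos a - 1) • L.γ θ + Real.sin a • L.n θ := by
  rw [lp, sub_smul, one_smul]; abel

lemma abs_cos_sub_one (a : ℝ) : |Real.cos a - 1| ≤ |a| := by
  simpa using Real.abs_cos_sub_cos_le a 0

lemma endDir_cone (B : ConeEnd) : EndDir B.pt (range B.γ) := by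
  refine ⟨B.γ_periodic.compact_of_continuous Real.two_pi_pos.ne' B.γ_smooth.continuous,
    fun ε hε => ?_⟩
  obtain ⟨R, hR⟩ := (small_lim B.smooth B.lim (show 0 < ε / 3 by positivity)).exists
  filter_upwards [Real.tendsto_log_atTop.eventually_gt_atTop R, eventually_gt_atTop 0]
    with r h1 h2 θ
  refine ⟨_, ⟨θ, rfl⟩, ?_⟩
  have h3 := (hR (Real.log r, θ) h1).1
  rw [cone_pt, inv_smul_smul₀ h2.ne', lp_sub]
  refine (norm_add_le _ _).trans_lt ?_
  rw [norm_smul, norm_smul, B.γ_unit, B.n_unit, Real.norm_eq_abs, Real.norm_eq_abs]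
  rw [sub_zero] at h3
  linarith [abs_cos_sub_one (B.u (Real.log r, θ)), Real.abs_sin_le_abs (x := B.u (Real.log r, θ))]

lemma lp_lip (L : Link) : ∃ M, 0 ≤ M ∧ ∀ θ h a a' : ℝ,
    ‖(lp L (θ + h) a' - L.γ (θ + h)) - (lp L θ a - L.γ θ)‖ ≤ 2 * |a' - a| + M * |a| * |h| := by
  obtain ⟨M₁, h1, k1⟩ := taylor_pb (pb_periodic L.γ_smooth L.γ_periodic) convex_univ
  obtain ⟨M₂, h2, k2⟩ := taylor_pb (pb_periodic L.n_smooth L.n_periodic) convex_univ
  refine ⟨M₁ + M₂, by positivity, fun θ h a a' => ?_⟩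
  have a1 := ((k1 θ trivial).2 (θ + h) trivial).1
  have a2 := ((k2 θ trivial).2 (θ + h) trivial).1
  rw [add_sub_cancel_left, Real.norm_eq_abs] at a1 a2
  have e : (lp L (θ + h) a' - L.γ (θ + h)) - (lp L θ a - L.γ θ)
      = ((Real.cos a' - Real.cos a) • L.γ (θ + h) + (Real.sin a' - Real.sin a) • L.n (θ + h))
        + ((Real.cos a - 1) • (L.γ (θ + h) - L.γ θ) + Real.sin a • (L.n (θ + h) - L.n θ)) := by
    simp only [lp, sub_smul, smul_sub, one_smul]; abel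
  rw [e]
  refine (norm_add_le _ _).trans (add_le_add ((norm_add_le _ _).trans ?_)
    ((norm_add_le _ _).trans ?_))
  · rw [norm_smul, norm_smul, L.γ_unit, L.n_unit, Real.norm_eq_abs, Real.norm_eq_abs]
    linarith [Real.abs_cos_sub_cos_le a' a, Real.abs_sin_sub_sin_le a' a]
  · rw [norm_smul, norm_smul, Real.norm_eq_abs, Real.norm_eq_abs]
    calc _ ≤ |a| * (M₁ * |h|) + |a| * (M₂ * |h|) :=
          add_le_add (mul_le_mul (abs_cos_sub_one a) a1 (norm_nonneg _) (abs_nonneg _))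
            (mul_le_mul Real.abs_sin_le_abs a2 (norm_nonneg _) (abs_nonneg _))
      _ = _ := by ring

lemma abs_log_sub {r r' d : ℝ} (hr : 2 ≤ r) (hd : |r' - r| ≤ d) (h1 : d ≤ 1) :
    r * |Real.log r' - Real.log r| ≤ 2 * d := by
  rw [abs_le] at hd
  have h2 : 0 < r' := by linarith [hd.1]
  have h3 : 0 < r := by linarith
  have a1 := Real.log_le_sub_one_of_pos (div_pos h2 h3)
  have a2 := Real.log_le_sub_one_of_pos (div_pos h3 h2)
  rw [Real.log_div (by positivity) (by positivity), div_sub_one (by positivity),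
    le_div_iff₀ (by positivity)] at a1 a2
  rcases abs_cases (Real.log r' - Real.log r) with h | h <;> rw [h.1] <;> nlinarith [hd.1, hd.2]

lemma norm_three {u v D : E3} {δ n M : ℝ} (hv : ‖v‖ = 1) (h1 : |δ| ≤ 1) (h2 : |δ| ≤ n)
    (h3 : ‖v - u‖ ≤ M * n) (h4 : ‖v - u - D‖ ≤ M * n ^ 2) :
    ‖(Real.exp δ - 1 - δ) • v + δ • (v - u) + (v - u - D)‖ ≤ (1 + 2 * M) * n ^ 2 := by
  refine (norm_add₃_le).trans ?_
  rw [norm_smul, norm_smul, hv, Real.norm_eq_abs, Real.norm_eq_abs]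
  have a2 := Real.abs_exp_sub_one_sub_id_le h1
  have a3 : δ ^ 2 ≤ n ^ 2 := by rw [← sq_abs]; gcongr
  have a4 : |δ| * ‖v - u‖ ≤ n * (M * n) :=
    mul_le_mul h2 h3 (norm_nonneg _) ((abs_nonneg _).trans h2)
  linarith

lemma max_bound {c r d a b g : ℝ} (hc : 0 < c) (hr : 0 ≤ r) (hd : 0 ≤ d) (h1 : r * a ≤ 2 * d)
    (h2 : r * g ≤ 4 * d) (h3 : c * b ≤ g + c / 2 * (a + b)) : r * max a b ≤ (8 / c + 2) * d := by
  have a1 : c * ((8 / c + 2) * d) = 8 * d + 2 * (c * d) := by field_simp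
  have a2 : 0 ≤ 8 / c * d := by positivity
  rw [mul_max_of_nonneg _ _ hr]
  refine max_le (by linarith) (le_of_mul_le_mul_left ?_ hc)
  linarith [mul_le_mul_of_nonneg_left h3 hr, mul_le_mul_of_nonneg_left h1 hc.le]

lemma endBall_cone (B : ConeEnd) (hΦ : Differentiable ℝ Φ)
    (h0 : ∀ᶠ r in atTop, ∀ θ, Φ (B.pt r θ) = 0) : EndBall Φ B.pt := by
  obtain ⟨c, hc, hcl⟩ := curve_lower B.toLink
  obtain ⟨M', hM', hlip⟩ := lp_lip B.toLink
  set ε := c / (2 * (2 + M')) with hε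
  have hε0 : 0 < ε := by positivity
  have hεc : ε * (2 + M') = c / 2 := by rw [hε]; field_simp
  obtain ⟨R, ⟨hR, hs⟩, h0⟩ := (((pb_lim B.smooth B.lim).and (small_lim B.smooth B.lim hε0)).and
    (eventually_forall_ge_atTop.2 (Real.tendsto_exp_atTop.eventually h0))).exists
  set G : ℝ × ℝ → E3 := fun q => lp B.toLink q.2 (B.u q) with hG
  have hGb : PB 2 (fun _ => 1) (hpl R) G :=
    (((pb_periodic Real.contDiff_cos Real.cos_periodic).comp hR (mapsTo_univ _ _)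
      (Bd.const _)).smul (pb_snd B.γ_smooth B.γ_periodic R)).add
    (((pb_periodic Real.contDiff_sin Real.sin_periodic).comp hR (mapsTo_univ _ _)
      (Bd.const _)).smul (pb_snd B.n_smooth B.n_periodic R))
  obtain ⟨M, hM0, hM⟩ := taylor_pb hGb (convex_hpl R)
  set C := 8 / c + 2 with hC
  filter_upwards [eventually_ge_atTop (Real.exp R), eventually_ge_atTop 2,
    eventually_ge_atTop ((1 + 2 * M) * C ^ 2)] with T hT1 hT2 hT3
  rintro x y hx hy ⟨θ, ex⟩ ⟨θ', ey⟩ hd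
  obtain ⟨h, hh, e⟩ := exists_angle (P := B.pt ‖y‖)
    (fun t => by simp only [cone_pt, B.periodic, lp_periodic]) θ θ'
  rw [e] at ey
  have x0 : 0 < ‖x‖ := by linarith
  have y0 : 0 < ‖y‖ := by linarith
  set q : ℝ × ℝ := (Real.log ‖x‖, θ) with hq
  set q' : ℝ × ℝ := (Real.log ‖y‖, θ + h) with hq'
  have m1 : q ∈ hpl R := (Real.lt_log_iff_exp_lt x0).2 (hT1.trans_lt hx)
  have m2 : q' ∈ hpl R := (Real.lt_log_iff_exp_lt y0).2 (hT1.trans_lt hy)
  have ex' : Real.exp q.1 • G q = x := by rw [hq, Real.exp_log x0]; exact ex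
  have ey' : Real.exp q'.1 • G q' = y := by rw [hq', Real.exp_log y0]; exact ey
  have hX := ((Real.hasDerivAt_exp q.1).comp_hasFDerivAt q
    (hasFDerivAt_fst (𝕜 := ℝ) (p := q))).fun_smul (hGb.diffAt m1).hasFDerivAt
  have k1 := nor_orth hX (hΦ _) (eventually_of_mem ((isOpen_hpl R).mem_nhds m1) fun p hp => by
    simpa [cone_pt] using h0 _ (le_of_lt hp) p.2) (q' - q)
  simp only [Function.comp_apply, ex'] at k1
  obtain ⟨k2, k3⟩ := (hM _ m1).2 _ m2
  set δ := q'.1 - q.1 with hδ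
  have hn := abs_norm_sub_norm_le y x
  have k4 : ‖x‖ * |δ| ≤ 2 * ‖y - x‖ := abs_log_sub (by linarith) hn hd
  have k5 : |δ| ≤ 1 := by
    linarith [mul_le_mul_of_nonneg_right (show 2 ≤ ‖x‖ by linarith) (abs_nonneg δ)]
  have k6 : ‖x‖ * ‖G q' - G q‖ ≤ 4 * ‖y - x‖ := by
    have a1 := norm_unit_sub_le (c := ‖x‖ / 2) (u := y) (v := x) (by positivity)
      (by linarith [(abs_le.1 hn).1]) (by linarith)
    have a2 : ‖y‖⁻¹ • y = G q' := by
      rw [inv_smul_eq_iff₀ y0.ne']; exact ey.symm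
    have a3 : ‖x‖⁻¹ • x = G q := by
      rw [inv_smul_eq_iff₀ x0.ne']; exact ex.symm
    rw [a2, a3] at a1
    calc _ ≤ ‖x‖ * (2 / (‖x‖ / 2) * ‖y - x‖) := by gcongr
      _ = _ := by field_simp; ring
  have hΔ : ‖q' - q‖ = max |δ| |h| := by simp [Prod.norm_def, hq, hq', hδ]
  have k7 : c * |h| ≤ ‖G q' - G q‖ + c / 2 * (|δ| + |h|) := by
    have a1 := hlip θ h (B.u q) (B.u q')
    obtain ⟨a2, a3⟩ := hs q m1
    have a4 := a3 q' m2
    rw [sub_zero] at a2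
    have a5 : ‖q' - q‖ ≤ |δ| + |h| := by
      rw [hΔ]; exact max_le (by linarith [abs_nonneg h]) (by linarith [abs_nonneg δ])
    have a6 : B.γ (θ + h) - B.γ θ = (G q' - G q)
        - ((lp B.toLink (θ + h) (B.u q') - B.γ (θ + h)) - (lp B.toLink θ (B.u q) - B.γ θ)) := by
      simp only [hG, hq, hq']; abel
    refine (hcl θ h hh).trans (a6 ▸ (norm_sub_le _ _).trans (add_le_add le_rfl (a1.trans ?_)))
    calc _ ≤ 2 * (ε * (|δ| + |h|)) + M' * ε * (|δ| + |h|) := by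
          gcongr
          exacts [a4.trans (by gcongr), by linarith [abs_nonneg δ]]
      _ = ε * (2 + M') * (|δ| + |h|) := by ring
      _ = _ := by rw [hεc]
  have k8 : ‖x‖ * ‖q' - q‖ ≤ C * ‖y - x‖ := by
    rw [hΔ]; exact max_bound hc x0.le (norm_nonneg _) k4 k6 k7
  have k9 : y - x = ‖x‖ • ((Real.exp δ - 1 - δ) • G q' + δ • (G q' - G q)
      + (G q' - G q - fderiv ℝ G q (q' - q)))
      + (Real.exp q.1 • fderiv ℝ G q + (Real.exp q.1 • ContinuousLinearMap.fst ℝ ℝ ℝ).smulRight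
        (G q)) (q' - q) := by
    have a1 : Real.exp q.1 = ‖x‖ := Real.exp_log x0
    have a2 : Real.exp q'.1 = ‖x‖ * Real.exp δ := by rw [← a1, ← Real.exp_add, hδ]; simp
    conv_lhs => rw [← ex', ← ey', a2, a1]
    simp only [add_apply, smul_apply, ContinuousLinearMap.smulRight_apply,
      ContinuousLinearMap.coe_fst', Prod.fst_sub, ← hδ, a1, smul_eq_mul]
    module
  have k10 := norm_three (D := fderiv ℝ G q (q' - q)) (norm_lp _ _ _) k5 (hΔ ▸ le_max_left _ _)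
    k2 k3
  conv_lhs => rw [k9, inner_add_right, k1, add_zero]
  calc _ ≤ 1 * (‖x‖ * ((1 + 2 * M) * ‖q' - q‖ ^ 2)) := (abs_real_inner_le_norm _ _).trans (by
        rw [norm_smul, norm_norm]
        gcongr
        exact norm_nor_le x)
    _ ≤ (1 + 2 * M) * (‖x‖ * ‖q' - q‖) ^ 2 := by
        have : 0 ≤ (1 + 2 * M) * ‖q' - q‖ ^ 2 * ‖x‖ := by positivity
        linarith [mul_le_mul_of_nonneg_left (show 1 ≤ ‖x‖ by linarith) this]
    _ ≤ (1 + 2 * M) * (C * ‖y - x‖) ^ 2 := by gcongr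
    _ = (1 + 2 * M) * C ^ 2 * ‖y - x‖ ^ 2 := by ring
    _ ≤ _ := by gcongr

lemma sep_ends {pt pt' : ℝ → ℝ → E3} {Δ Δ' : Set E3} (h : EndDir pt Δ) (h' : EndDir pt' Δ')
    (hd : Disjoint Δ Δ') : ∀ᶠ T in atTop, ∀ x y : E3, T < ‖x‖ → T < ‖y‖ → x ∈ range (pt ‖x‖) →
      y ∈ range (pt' ‖y‖) → 1 < ‖y - x‖ := by
  obtain ⟨δ, hδ, hm⟩ := (h.1.prod h'.1).exists_forall_le' (f := fun z : E3 × E3 => ‖z.2 - z.1‖)
    (by fun_prop) (a := 0) fun z hz => norm_pos_iff.2 (sub_ne_zero.2 fun e =>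
      Set.disjoint_left.1 hd hz.1 (e ▸ hz.2))
  filter_upwards [eventually_forall_ge_atTop.2 (h.2 (δ / 3) (by positivity)),
    eventually_forall_ge_atTop.2 (h'.2 (δ / 3) (by positivity)), eventually_ge_atTop (6 / δ)]
    with T h1 h2 h3
  rintro x y hx hy ⟨θ, ex⟩ ⟨θ', ey⟩
  obtain ⟨d, k1, k2⟩ := h1 _ hx.le θ
  obtain ⟨d', k3, k4⟩ := h2 _ hy.le θ'
  rw [ex] at k2
  rw [ey] at k4
  have k5 := norm_unit_sub_le (c := 6 / δ) (u := y) (v := x) (by positivity) (by linarith)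
    (by linarith)
  have k6 : δ ≤ ‖d' - d‖ := hm (d, d') ⟨k1, k3⟩
  have k7 : d' - d = (‖y‖⁻¹ • y - ‖x‖⁻¹ • x) + (‖x‖⁻¹ • x - d) - (‖y‖⁻¹ • y - d') := by abel
  have k8 := norm_sub_le ((‖y‖⁻¹ • y - ‖x‖⁻¹ • x) + (‖x‖⁻¹ • x - d)) (‖y‖⁻¹ • y - d')
  have k9 := norm_add_le (‖y‖⁻¹ • y - ‖x‖⁻¹ • x) (‖x‖⁻¹ • x - d)
  rw [← k7] at k8
  have e : 2 / (6 / δ) = δ / 3 := by field_simp; ring
  rw [e] at k5
  by_contra hc
  nlinarith [not_lt.1 hc]

lemma ball_compact (hs : ContDiff ℝ ∞ Φ) (hne : ∀ x, Φ x = 0 → gradient Φ x ≠ 0) (R : ℝ) :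
    ∃ K, ∀ x y : E3, ‖x‖ ≤ R → Φ x = 0 → Φ y = 0 → ‖y - x‖ ≤ 1 →
      |⟪nor Φ x, y - x⟫| ≤ K * ‖y - x‖ ^ 2 := by
  obtain ⟨M, hM0, hM⟩ := taylor_pb (PB.of_compact (n := 2) (f := Φ) (U := ball 0 (R + 2))
    isOpen_ball (fun _ => le_rfl) (isCompact_closedBall 0 (R + 2)) ball_subset_closedBall
    fun z _ => hs.contDiffAt.of_le two_le_inf) (convex_ball _ _)
  obtain ⟨c, hc, hm⟩ := ((isCompact_closedBall (0 : E3) R).inter_right
    (isClosed_eq hs.continuous continuous_const)).exists_forall_le'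
    (f := fun x => ‖gradient Φ x‖) (fun x _ =>
      (cdAt_grad (n := 0) hs.contDiffAt (by simp)).continuousAt.norm.continuousWithinAt)
    (a := 0) fun x hx => norm_pos_iff.2 (hne x hx.2)
  refine ⟨c⁻¹ * M, fun x y hx h1 h2 hd => ?_⟩
  have k1 := ((hM x (by simp; linarith)).2 y (by
    have := norm_add_le x (y - x)
    simp only [add_sub_cancel] at this
    simp; linarith)).2
  rw [h1, h2, sub_zero, zero_sub, norm_neg, Real.norm_eq_abs] at k1
  rw [inner_nor, abs_mul, abs_inv, abs_norm, mul_assoc]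
  gcongr
  exact hm x ⟨by simpa using hx, h1⟩

theorem ball_of_ends {S : Set E3} (h : IsSmoothShrinker S Φ) (hE : HasCylConeEnds S) :
    ∃ K, ∀ p ∈ S, ∀ q ∈ S, |⟪nor Φ p, q - p⟫| ≤ K * ‖q - p‖ ^ 2 := by
  obtain ⟨k, l, A, B, R, h1, h2, h3, h4⟩ := hE
  set pt : Fin k ⊕ Fin l → ℝ → ℝ → E3 := Sum.elim (fun i => (A i).pt) fun j => (B j).pt with hpt
  set Δ : Fin k ⊕ Fin l → Set E3 := Sum.elim (fun i => {(A i).axis}) fun j => range (B j).γ
  have h5 : ∀ r, R < r → S ∩ sphere 0 r = ⋃ i, range (pt i r) := fun r hr => by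
    rw [h4 r hr, iUnion_sum]; rfl
  have h6 : ∀ i, ∀ᶠ r in atTop, ∀ θ, Φ (pt i r θ) = 0 := fun i =>
    (eventually_gt_atTop R).mono fun r hr θ => (h.mem_iff _).1
      ((h5 r hr).ge (mem_iUnion.2 ⟨i, θ, rfl⟩)).1
  have hd := h.smooth.differentiable (by simp)
  have hB : ∀ i, EndBall Φ (pt i) := by
    rintro (i | j)
    exacts [endBall_cyl _ hd (h6 (.inl i)), endBall_cone _ hd (h6 (.inr j))]
  have hD : ∀ i, EndDir (pt i) (Δ i) := by
    rintro (i | j)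
    exacts [endDir_cyl _, endDir_cone _]
  have hdis : ∀ i j, i ≠ j → Disjoint (Δ i) (Δ j) := by
    rintro (i | i) (j | j) hij
    · exact disjoint_singleton.2 fun e => hij (by rw [h1 i j e])
    · exact disjoint_singleton_left.2 fun ⟨θ, e⟩ => h2 i j θ e.symm
    · exact disjoint_singleton_right.2 fun ⟨θ, e⟩ => h2 j i θ e.symm
    · exact Set.disjoint_left.2 fun _ ⟨θ, e⟩ ⟨θ', e'⟩ => hij (by rw [h3 i j θ θ' (e.trans e'.symm)])
  obtain ⟨T, ⟨k1, k2⟩, k3⟩ := (((eventually_all.2 hB).and (eventually_all.2 fun i =>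
    eventually_all.2 fun j => eventually_all.2 fun hij : i ≠ j =>
      sep_ends (hD i) (hD j) (hdis i j hij))).and (eventually_ge_atTop R)).exists
  obtain ⟨K, hK⟩ := ball_compact h.smooth (fun x hx => h.grad_ne x ((h.mem_iff x).2 hx)) (T + 1)
  refine ⟨max (max K T) 1, fun p hp q hq => ?_⟩
  rcases lt_or_ge 1 ‖q - p‖ with hd | hd
  · calc _ ≤ 1 * ‖q - p‖ := (abs_real_inner_le_norm _ _).trans (by gcongr; exact norm_nor_le p)
      _ ≤ 1 * ‖q - p‖ ^ 2 := by nlinarith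
      _ ≤ _ := by gcongr; exact le_max_right _ _
  rcases le_or_gt ‖p‖ (T + 1) with hp' | hp'
  · exact (hK p q hp' ((h.mem_iff p).1 hp) ((h.mem_iff q).1 hq) hd).trans
      (by gcongr; exact le_max_of_le_left (le_max_left _ _))
  have a1 : T < ‖q‖ := by linarith [(abs_le.1 (abs_norm_sub_norm_le q p)).1]
  obtain ⟨i, hi⟩ := mem_iUnion.1 ((h5 ‖p‖ (by linarith)).le ⟨hp, by simp⟩)
  obtain ⟨j, hj⟩ := mem_iUnion.1 ((h5 ‖q‖ (by linarith)).le ⟨hq, by simp⟩)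
  obtain rfl : i = j := by
    by_contra hij
    exact (k2 i j hij p q (by linarith) a1 hi hj).not_ge hd
  exact (k1 i p q (by linarith) a1 hi hj hd).trans
    (by gcongr; exact le_max_of_le_left (le_max_right _ _))

/-- **The uniform tube.** -/
theorem exists_tube {S : Set E3} (h : IsSmoothShrinker S Φ) (hE : HasCylConeEnds S) :
    ∃ (w : E3 → ℝ) (δ C : ℝ), IsTubeShrinker S w δ C ∧ ContDiff ℝ ∞ w := by
  obtain ⟨K, hK⟩ := ball_of_ends h hE
  exact tube_of_ball h hK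

theorem mainSmooth_of_main (h : Main) : MainSmooth := fun S _ hS hE => by
  obtain ⟨w, δ, C, h1, h2⟩ := exists_tube hS hE
  exact h S w δ C h1 h2 hE

end Vale.Agent.P218TB
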