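import Vale.Agent.P218GE.Foot
import Vale.Agent.P218UG.Stack

/-! # P218, block TB: regular level sets with a two-sided ball condition -/

open Set Filter Topology Metric
open scoped RealInnerProductSpace

namespace Vale.Agent.P218TB

open Vale.Agent.P218GE (nor inner_grad norm_grad cdAt_grad)

variable {E : Type} [NormedAddCommGroup E] [InnerProductSpace ℝ E] [FiniteDimensional ℝ E]

/-- The zero set of `Φ` is regular and satisfies the two-sided ball condition with radius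
`1 / (2 K)`. -/
structure IsBall (Φ : E → ℝ) (K : ℝ) : Prop where
  Kpos : 0 < K
  cont : Continuous Φ
  cd : ∀ p, Φ p = 0 → ContDiffAt ℝ 2 Φ p
  ne : ∀ p, Φ p = 0 → gradient Φ p ≠ 0
  ball : ∀ p q, Φ p = 0 → Φ q = 0 → |⟪nor Φ p, q - p⟫| ≤ K * ‖q - p‖ ^ 2

variable {Φ : E → ℝ} {K : ℝ}

lemma norm_nor {p : E} (h : gradient Φ p ≠ 0) : ‖nor Φ p‖ = 1 := by
  rw [nor, norm_smul, norm_inv, norm_norm, inv_mul_cancel₀ (norm_ne_zero_iff.2 h)]

lemma grad_eq {p : E} (h : gradient Φ p ≠ 0) : gradient Φ p = ‖gradient Φ p‖ • nor Φ p := by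
  rw [nor, smul_smul, mul_inv_cancel₀ (norm_ne_zero_iff.2 h), one_smul]

lemma inner_nor (p v : E) : ⟪nor Φ p, v⟫ = ‖gradient Φ p‖⁻¹ * fderiv ℝ Φ p v := by
  rw [nor, real_inner_smul_left, inner_grad]

lemma fderiv_nor_self {p : E} (h : gradient Φ p ≠ 0) :
    fderiv ℝ Φ p (nor Φ p) = ‖gradient Φ p‖ := by
  rw [← inner_grad, nor, real_inner_smul_right, real_inner_self_eq_norm_sq]
  field_simp

lemma gradient_neg (p : E) : gradient (fun x => -Φ x) p = -gradient Φ p := by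
  rw [gradient, gradient, fderiv_fun_neg, map_neg]

lemma nor_neg (p : E) : nor (fun x => -Φ x) p = -nor Φ p := by
  rw [nor, nor, gradient_neg, norm_neg, smul_neg]

lemma cdAt_nor {p : E} {n k : WithTop ℕ∞} (hf : ContDiffAt ℝ k Φ p) (h : n + 1 ≤ k)
    (h0 : gradient Φ p ≠ 0) : ContDiffAt ℝ n (nor Φ) p :=
  (((cdAt_grad hf h).norm ℝ h0).inv (norm_ne_zero_iff.2 h0)).smul (cdAt_grad hf h)

lemma IsBall.mono (h : IsBall Φ K) {K' : ℝ} (hK : K ≤ K') : IsBall Φ K' :=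
  ⟨h.Kpos.trans_le hK, h.cont, h.cd, h.ne, fun p q hp hq => (h.ball p q hp hq).trans (by gcongr)⟩

lemma IsBall.neg (h : IsBall Φ K) : IsBall (fun x => -Φ x) K := by
  refine ⟨h.Kpos, h.cont.neg, fun p hp => (h.cd p (neg_eq_zero.1 hp)).neg, fun p hp => ?_,
    fun p q hp hq => ?_⟩
  · rw [gradient_neg, neg_ne_zero]; exact h.ne p (neg_eq_zero.1 hp)
  · rw [nor_neg, inner_neg_left, abs_neg]; exact h.ball p q (neg_eq_zero.1 hp) (neg_eq_zero.1 hq)

lemma IsBall.diffAt (h : IsBall Φ K) {p : E} (hp : Φ p = 0) : DifferentiableAt ℝ Φ p :=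
  (h.cd p hp).differentiableAt (by norm_num)

lemma IsBall.diffAt_nor (h : IsBall Φ K) {p : E} (hp : Φ p = 0) : DifferentiableAt ℝ (nor Φ) p :=
  (cdAt_nor (n := 1) (h.cd p hp) (by norm_num) (h.ne p hp)).differentiableAt (by norm_num)

/-- the foot point is a Lipschitz function -/
lemma IsBall.foot_lip (h : IsBall Φ K) {p q : E} {t s : ℝ} (hp : Φ p = 0) (hq : Φ q = 0)
    (ht : K * |t| ≤ 1 / 4) (hs : K * |s| ≤ 1 / 4) :
    ‖p - q‖ ≤ 2 * ‖(p + t • nor Φ p) - (q + s • nor Φ q)‖ := by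
  set d := (p + t • nor Φ p) - (q + s • nor Φ q) with hd
  have h1 := h.ball p q hp hq
  have h2 := h.ball q p hq hp
  rw [norm_sub_rev q p, ← neg_sub p q, inner_neg_right, abs_neg] at h1
  have e : ⟪d, p - q⟫ = ‖p - q‖ ^ 2 + t * ⟪nor Φ p, p - q⟫ - s * ⟪nor Φ q, p - q⟫ := by
    rw [← real_inner_self_eq_norm_sq, ← real_inner_smul_left, ← real_inner_smul_left,
      ← inner_add_left, ← inner_sub_left]
    congr 1
    rw [hd]; abel
  have h3 : |t * ⟪nor Φ p, p - q⟫| ≤ 1 / 4 * ‖p - q‖ ^ 2 := by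
    rw [abs_mul]
    calc |t| * |⟪nor Φ p, p - q⟫| ≤ |t| * (K * ‖p - q‖ ^ 2) := by gcongr
      _ = K * |t| * ‖p - q‖ ^ 2 := by ring
      _ ≤ _ := by gcongr
  have h4 : |s * ⟪nor Φ q, p - q⟫| ≤ 1 / 4 * ‖p - q‖ ^ 2 := by
    rw [abs_mul]
    calc |s| * |⟪nor Φ q, p - q⟫| ≤ |s| * (K * ‖p - q‖ ^ 2) := by gcongr
      _ = K * |s| * ‖p - q‖ ^ 2 := by ring
      _ ≤ _ := by gcongr
  have h5 : ⟪d, p - q⟫ ≤ ‖d‖ * ‖p - q‖ := real_inner_le_norm _ _
  have h6 : ‖p - q‖ * ‖p - q‖ ≤ 2 * ‖d‖ * ‖p - q‖ := by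
    have := neg_abs_le (t * ⟪nor Φ p, p - q⟫)
    have := le_abs_self (s * ⟪nor Φ q, p - q⟫)
    nlinarith
  rcases (norm_nonneg (p - q)).eq_or_lt with h0 | h0
  · rw [← h0]; positivity
  · exact le_of_mul_le_mul_right h6 h0

/-- uniqueness of the foot point -/
lemma IsBall.foot_unique (h : IsBall Φ K) {p q : E} {t s : ℝ} (hp : Φ p = 0) (hq : Φ q = 0)
    (ht : K * |t| ≤ 1 / 4) (hs : K * |s| ≤ 1 / 4) (he : p + t • nor Φ p = q + s • nor Φ q) :
    p = q ∧ t = s := by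
  have h1 := h.foot_lip hp hq ht hs
  rw [he, sub_self, norm_zero, mul_zero, norm_le_zero_iff, sub_eq_zero] at h1
  subst h1
  refine ⟨rfl, ?_⟩
  have h2 : (t - s) • nor Φ p = 0 := by rw [sub_smul, sub_eq_zero]; simpa using he
  have h3 := congrArg norm h2
  rw [norm_smul, norm_nor (h.ne p hp), norm_zero, mul_one, norm_eq_zero] at h3
  linarith

/-- the tangent balls do not meet the zero set -/
lemma IsBall.ne_zero_ball (h : IsBall Φ K) {p y : E} {r : ℝ} (hp : Φ p = 0) (hr : 0 < r)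
    (hK : K * r ≤ 1 / 2) (hy : y ∈ Metric.ball (p + r • nor Φ p) r) : Φ y ≠ 0 := by
  intro h0
  have h1 := h.ball p y hp h0
  rw [mem_ball, dist_eq_norm] at hy
  have e : y - (p + r • nor Φ p) = (y - p) - r • nor Φ p := by abel
  have h2 : ‖y - (p + r • nor Φ p)‖ ^ 2 = ‖y - p‖ ^ 2 - 2 * (r * ⟪nor Φ p, y - p⟫) + r ^ 2 := by
    rw [e, norm_sub_sq_real, norm_smul, norm_nor (h.ne p hp), real_inner_smul_right,
      real_inner_comm, Real.norm_eq_abs, abs_of_pos hr, mul_one]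
  have h3 : ‖y - (p + r • nor Φ p)‖ ^ 2 < r ^ 2 := by gcongr
  have h4 : r * ⟪nor Φ p, y - p⟫ ≤ 1 / 2 * ‖y - p‖ ^ 2 :=
    calc r * ⟪nor Φ p, y - p⟫ ≤ r * (K * ‖y - p‖ ^ 2) := by
          gcongr; exact (le_abs_self _).trans h1
      _ = K * r * ‖y - p‖ ^ 2 := by ring
      _ ≤ _ := by gcongr
  linarith

/-- `Φ` is positive in the tangent ball on the side of the normal -/
lemma IsBall.pos_ball (h : IsBall Φ K) {p y : E} {r : ℝ} (hp : Φ p = 0) (hr : 0 < r)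
    (hK : K * r ≤ 1 / 2) (hy : y ∈ Metric.ball (p + r • nor Φ p) r) : 0 < Φ y := by
  have h1 : HasDerivAt (fun s : ℝ => p + s • nor Φ p) (nor Φ p) 0 := by
    simpa using ((hasDerivAt_id (0 : ℝ)).smul_const (nor Φ p)).const_add p
  have h2 : HasDerivAt (fun s : ℝ => Φ (p + s • nor Φ p)) ‖gradient Φ p‖ 0 := by
    rw [← fderiv_nor_self (h.ne p hp)]
    exact HasFDerivAt.comp_hasDerivAt_of_eq 0 (h.diffAt hp).hasFDerivAt h1 (by simp)
  have h3 := (hasDerivAt_iff_tendsto_slope_zero.1 h2).eventually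
    (lt_mem_nhds (norm_pos_iff.2 (h.ne p hp)))
  have h4 : ∀ᶠ s in 𝓝[>] (0 : ℝ), 0 < s⁻¹ • (Φ (p + (0 + s) • nor Φ p) - Φ (p + (0 : ℝ) • nor Φ p)) :=
    h3.filter_mono (nhdsGT_le_nhdsNE 0)
  obtain ⟨s, hs1, hs2⟩ := (h4.and (Ioo_mem_nhdsGT hr)).exists
  have hs0 : 0 < Φ (p + s • nor Φ p) := by
    simp only [zero_add, zero_smul, add_zero, hp, sub_zero, smul_eq_mul] at hs1
    exact (mul_pos_iff_of_pos_left (inv_pos.2 hs2.1)).1 hs1
  have hm : p + s • nor Φ p ∈ Metric.ball (p + r • nor Φ p) r := by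
    rw [mem_ball, dist_eq_norm, add_sub_add_left_eq_sub, ← sub_smul, norm_smul,
      norm_nor (h.ne p hp), mul_one, Real.norm_eq_abs, abs_lt]
    constructor <;> linarith [hs2.1, hs2.2]
  by_contra hcon
  have h5 := (convex_ball (p + r • nor Φ p) r).isPreconnected.intermediate_value hy hm
    h.cont.continuousOn
  obtain ⟨z, hz, hz0⟩ := h5 ⟨not_lt.1 hcon, hs0.le⟩
  exact h.ne_zero_ball hp hr hK hz hz0

lemma IsBall.neg_ball (h : IsBall Φ K) {p y : E} {r : ℝ} (hp : Φ p = 0) (hr : 0 < r)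
    (hK : K * r ≤ 1 / 2) (hy : y ∈ Metric.ball (p - r • nor Φ p) r) : Φ y < 0 := by
  have := h.neg.pos_ball (p := p) (y := y) (by simp [hp]) hr hK
    (by rwa [nor_neg, smul_neg, ← sub_eq_add_neg])
  linarith

/-- the sign of `Φ` on the normal segment -/
lemma IsBall.sign_foot (h : IsBall Φ K) {p : E} {t : ℝ} (hp : Φ p = 0) (ht : K * |t| ≤ 1 / 2) :
    Real.sign (Φ (p + t • nor Φ p)) = Real.sign t := by
  rcases lt_trichotomy t 0 with h0 | h0 | h0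
  · rw [abs_of_neg h0] at ht
    rw [Real.sign_of_neg h0, Real.sign_of_neg (h.neg_ball hp (neg_pos.2 h0) ht ?_)]
    simpa using h0
  · rw [h0, zero_smul, add_zero, hp]
  · rw [abs_of_pos h0] at ht
    rw [Real.sign_of_pos h0, Real.sign_of_pos (h.pos_ball hp h0 ht (mem_ball_self h0))]

/-- the unit normal is Lipschitz on the zero set -/
lemma IsBall.nor_lip (h : IsBall Φ K) {p q : E} (hp : Φ p = 0) (hq : Φ q = 0) :
    ‖nor Φ p - nor Φ q‖ ≤ 4 * K * ‖p - q‖ := by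
  have hK := h.Kpos
  set r := 1 / (2 * K) with hr
  have hr0 : 0 < r := by positivity
  have hKr : K * r = 1 / 2 := by rw [hr]; field_simp
  have h1 : 2 * r ≤ ‖(p + r • nor Φ p) - (q - r • nor Φ q)‖ := by
    by_contra hcon
    rw [not_le, ← dist_eq_norm] at hcon
    have h2 := h.pos_ball (y := midpoint ℝ (p + r • nor Φ p) (q - r • nor Φ q)) hp hr0 hKr.le
      (by rw [mem_ball, dist_midpoint_left]; simp only [Real.norm_ofNat]; linarith)
    have h3 := h.neg_ball (y := midpoint ℝ (p + r • nor Φ p) (q - r • nor Φ q)) hq hr0 hKr.le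
      (by rw [mem_ball, dist_midpoint_right]; simp only [Real.norm_ofNat]; linarith)
    linarith
  have e : (p + r • nor Φ p) - (q - r • nor Φ q) = (p - q) + r • (nor Φ p + nor Φ q) := by
    rw [smul_add]; abel
  have h2 : (2 * r) ^ 2 ≤ ‖p - q‖ ^ 2 + 2 * (r * (⟪nor Φ p, p - q⟫ + ⟪nor Φ q, p - q⟫))
      + r ^ 2 * ‖nor Φ p + nor Φ q‖ ^ 2 := by
    rw [← inner_add_left, ← real_inner_smul_left, real_inner_comm, ← mul_pow, ← abs_of_pos hr0,
      ← Real.norm_eq_abs, ← norm_smul, Real.norm_eq_abs, abs_of_pos hr0, ← norm_add_sq_real, ← e]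
    gcongr
  have h3 := parallelogram_law_with_norm ℝ (nor Φ p) (nor Φ q)
  rw [norm_nor (h.ne p hp), norm_nor (h.ne q hq)] at h3
  have h4 := h.ball p q hp hq
  have h5 := h.ball q p hq hp
  rw [norm_sub_rev q p, ← neg_sub p q, inner_neg_right, abs_neg] at h4
  have h6 : r * (⟪nor Φ p, p - q⟫ + ⟪nor Φ q, p - q⟫) ≤ ‖p - q‖ ^ 2 :=
    calc r * (⟪nor Φ p, p - q⟫ + ⟪nor Φ q, p - q⟫) ≤ r * (K * ‖p - q‖ ^ 2 + K * ‖p - q‖ ^ 2) := by
          gcongr
          exacts [(le_abs_self _).trans h4, (le_abs_self _).trans h5]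
      _ = 2 * (K * r) * ‖p - q‖ ^ 2 := by ring
      _ = _ := by rw [hKr]; ring
  have h7 : (r * ‖nor Φ p - nor Φ q‖) ^ 2 ≤ (2 * ‖p - q‖) ^ 2 := by
    have : ‖nor Φ p + nor Φ q‖ ^ 2 = 4 - ‖nor Φ p - nor Φ q‖ ^ 2 := by nlinarith
    rw [this] at h2
    nlinarith [sq_nonneg ‖p - q‖]
  have h8 := abs_le_of_sq_le_sq' h7 (by positivity)
  calc ‖nor Φ p - nor Φ q‖ = 2 * K * (r * ‖nor Φ p - nor Φ q‖) := by
        rw [← mul_assoc, mul_assoc 2 K r, hKr]; ring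
    _ ≤ 2 * K * (2 * ‖p - q‖) := mul_le_mul_of_nonneg_left h8.2 (by positivity)
    _ = _ := by ring

/-- every tangent vector of a regular level set is tangent to a curve in the level set -/
lemma exists_curve {p v : E} (hc : ContDiffAt ℝ 1 Φ p) (hp : Φ p = 0) (hg : gradient Φ p ≠ 0)
    (hv : fderiv ℝ Φ p v = 0) :
    ∃ c : ℝ → E, HasDerivAt c v 0 ∧ c 0 = p ∧ ∀ᶠ s in 𝓝 0, Φ (c s) = 0 := by
  set N := nor Φ p with hN
  set L : ℝ × ℝ →L[ℝ] E := (ContinuousLinearMap.fst ℝ ℝ ℝ).smulRight v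
    + (ContinuousLinearMap.snd ℝ ℝ ℝ).smulRight N with hL
  have hA : ContDiffAt ℝ 1 (fun z : ℝ × ℝ => p + L z) (0, 0) := by fun_prop
  have e0 : p + L (0, 0) = p := by simp [hL]
  have hf : ContDiffAt ℝ 1 (fun z : ℝ × ℝ => Φ (p + L z)) (0, 0) :=
    ContDiffAt.comp (g := Φ) _ (by rwa [e0]) hA
  have hd : HasFDerivAt (fun z : ℝ × ℝ => Φ (p + L z)) ((fderiv ℝ Φ p).comp L) (0, 0) :=
    HasFDerivAt.comp (g := Φ) _ (by rw [e0]; exact (hc.differentiableAt one_ne_zero).hasFDerivAt)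
      (L.hasFDerivAt.const_add p)
  have hn : fderiv ℝ Φ p N = ‖gradient Φ p‖ := fderiv_nor_self hg
  have hg' : ‖gradient Φ p‖ ≠ 0 := norm_ne_zero_iff.2 hg
  obtain ⟨φ, hφ, hφ0, hφe⟩ := P218UG.exists_implicit (P := ℝ) one_ne_zero hf (by rw [e0, hp])
    (by rw [hd.fderiv]; simpa [hL, hn] using hg)
  have hφd := (hφ.differentiableAt one_ne_zero).hasDerivAt
  have h1 : HasDerivAt (fun s : ℝ => (s, φ s)) (1, deriv φ 0) 0 := (hasDerivAt_id 0).prodMk hφd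
  have h2 : ∀ᶠ s in 𝓝 (0 : ℝ), Φ (p + L (s, φ s)) = 0 := by
    have := h1.continuousAt.tendsto
    rw [hφ0] at this
    filter_upwards [this.eventually hφe] with s hs using hs.2 rfl
  have h3 := HasFDerivAt.comp_hasDerivAt_of_eq 0 hd h1 (by rw [hφ0])
  have h4 := h3.unique ((hasDerivAt_const (0 : ℝ) (0 : ℝ)).congr_of_eventuallyEq h2)
  have h5 : deriv φ 0 = 0 := by simpa [hL, hv, hn, hg] using h4
  refine ⟨fun s => p + L (s, φ s), ?_, by simp only [hφ0, e0], h2⟩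
  have := (L.hasFDerivAt.comp_hasDerivAt 0 h1).const_add p
  simpa [hL, h5] using this

omit [FiniteDimensional ℝ E] in
/-- a Lipschitz bound along a curve gives a bound of the derivative -/
lemma norm_le_of_curve {F : Type} [NormedAddCommGroup F] [NormedSpace ℝ F] {c : ℝ → E} {g : ℝ → F}
    {v : E} {u : F} {L : ℝ} (hc : HasDerivAt c v 0) (hg : HasDerivAt g u 0)
    (h : ∀ᶠ s in 𝓝 0, ‖g s - g 0‖ ≤ L * ‖c s - c 0‖) : ‖u‖ ≤ L * ‖v‖ := by
  refine le_of_tendsto_of_tendsto (hasDerivAt_iff_tendsto_slope_zero.1 hg).norm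
    ((hasDerivAt_iff_tendsto_slope_zero.1 hc).norm.const_mul L) ?_
  filter_upwards [h.filter_mono nhdsWithin_le_nhds] with s hs
  simp only [zero_add, norm_smul]
  calc ‖s⁻¹‖ * ‖g s - g 0‖ ≤ ‖s⁻¹‖ * (L * ‖c s - c 0‖) := by gcongr
    _ = _ := by ring

/-- the bound of the second fundamental form -/
lemma IsBall.norm_dnor (h : IsBall Φ K) {p v : E} (hp : Φ p = 0) (hv : fderiv ℝ Φ p v = 0) :
    ‖fderiv ℝ (nor Φ) p v‖ ≤ 4 * K * ‖v‖ := by
  obtain ⟨c, hc, hc0, hc1⟩ := exists_curve ((h.cd p hp).of_le (by norm_num)) hp (h.ne p hp) hv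
  refine norm_le_of_curve (g := fun s => nor Φ (c s)) hc
    (HasFDerivAt.comp_hasDerivAt_of_eq 0 (h.diffAt_nor hp).hasFDerivAt hc hc0.symm) ?_
  filter_upwards [hc1] with s hs
  exact h.nor_lip hs (by rw [hc0, hp])

end Vale.Agent.P218TB
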