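import Vale.Agent.P218TB.EndGraph
import Vale.Agent.P218TB.Ball
import Vale.Agent.P218UG.Frame

/-! # P218, block TB: charts along sequences from converging graphs -/

open Set Filter Topology Metric
open scoped RealInnerProductSpace ContDiff

namespace Vale.Agent.P218TB

open Vale.Agent.P218UA Vale.Agent.P218UG
open Vale.Agent.P218GE (inner_grad)

/-- the defining function of a graph -/
noncomputable def gfun (Q : E3 ≃ₗᵢ[ℝ] E3) (p : E3) (u : E2 → ℝ) (x : E3) : ℝ :=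
  ⟪nQ Q, x - p⟫ - u (hor Q (x - p))

/-- the open cylinder -/
def cylQ (Q : E3 ≃ₗᵢ[ℝ] E3) (p : E3) (R h : ℝ) : Set E3 :=
  {x | ‖hor Q (x - p)‖ < R ∧ |⟪nQ Q, x - p⟫| < h}

variable {Q : E3 ≃ₗᵢ[ℝ] E3} {p x : E3} {R h : ℝ} {u : E2 → ℝ} {M : Set E3}

lemma isOpen_cylQ : IsOpen (cylQ Q p R h) := by
  have h1 : Continuous fun x : E3 => ‖hor Q (x - p)‖ := by fun_prop
  have h2 : Continuous fun x : E3 => |⟪nQ Q, x - p⟫| := by fun_prop
  exact (isOpen_lt h1 continuous_const).inter (isOpen_lt h2 continuous_const)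

lemma self_mem_cylQ (hR : 0 < R) (hh : 0 < h) : p ∈ cylQ Q p R h := by simp [cylQ, hR, hh]

lemma pt_coord (Q : E3 ≃ₗᵢ[ℝ] E3) (p x : E3) : pt Q p (hor Q (x - p)) ⟪nQ Q, x - p⟫ = x := by
  rw [real_inner_comm, pt_hor]

lemma graph_mem_iff (hM : IsGraph M Q p R h u) (hx : x ∈ cylQ Q p R h) :
    x ∈ M ↔ gfun Q p u x = 0 := by
  rw [gfun, sub_eq_zero, ← (hM _ hx.1).2 _ hx.2, pt_coord]

lemma cdAt_gfun {n : WithTop ℕ∞} (hu : ContDiffAt ℝ n u (hor Q (x - p))) :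
    ContDiffAt ℝ n (gfun Q p u) x :=
  (contDiffAt_const.inner ℝ (contDiffAt_id.sub contDiffAt_const)).sub
    (ContDiffAt.comp (g := u) (f := fun x => hor Q (x - p)) x hu (by fun_prop))

lemma cdAt_gfun' (hu : ContDiffOn ℝ ∞ u (ball 0 R)) (hx : x ∈ cylQ Q p R h) :
    ContDiffAt ℝ ∞ (gfun Q p u) x :=
  cdAt_gfun (hu.contDiffAt (isOpen_ball.mem_nhds (by simpa using hx.1)))

lemma fderiv_gfun (hu : DifferentiableAt ℝ (gfun Q p u) x) :
    fderiv ℝ (gfun Q p u) x (nQ Q) = 1 := by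
  have h1 : HasDerivAt (fun s : ℝ => x + s • nQ Q) (nQ Q) 0 := by
    simpa using ((hasDerivAt_id (0 : ℝ)).smul_const (nQ Q)).const_add x
  have h2 := HasFDerivAt.comp_hasDerivAt_of_eq 0 hu.hasFDerivAt h1 (by simp)
  have h3 : (gfun Q p u ∘ fun s : ℝ => x + s • nQ Q) = fun s => gfun Q p u x + s := by
    funext s
    have e : x + s • nQ Q - p = (x - p) + s • nQ Q := by abel
    have e2 : hor Q (nQ Q) = 0 := hor_lin (Q := Q) (0, 1)
    simp only [Function.comp_apply, gfun, e, inner_add_right, map_add, map_smul, e2,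
      real_inner_smul_right, real_inner_self_eq_norm_sq, norm_nQ, smul_zero, add_zero]
    ring
  rw [h3] at h2
  exact h2.unique ((hasDerivAt_id (0 : ℝ)).const_add _)

lemma grad_gfun_ne (hu : DifferentiableAt ℝ (gfun Q p u) x) : gradient (gfun Q p u) x ≠ 0 := by
  intro h0
  have := fderiv_gfun hu
  rw [← inner_grad, h0, inner_zero_left] at this
  exact zero_ne_one this

/-- three orthogonal vectors span three-space -/
lemma eq_zero_of_orth {a b c g : E3} (ha : a ≠ 0) (hb : b ≠ 0) (hc : c ≠ 0) (hab : ⟪a, b⟫ = 0)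
    (hac : ⟪a, c⟫ = 0) (hbc : ⟪b, c⟫ = 0) (h1 : ⟪g, a⟫ = 0) (h2 : ⟪g, b⟫ = 0) (h3 : ⟪g, c⟫ = 0) :
    g = 0 := by
  by_contra hg
  have h : LinearIndependent ℝ ![g, a, b, c] := by
    refine linearIndependent_of_ne_zero_of_inner_eq_zero (fun i => ?_) fun i j hij => ?_
    · fin_cases i <;> simpa
    · fin_cases i <;> fin_cases j <;> simp_all [real_inner_comm]
  have := h.fintype_card_le_finrank
  simp at this

/-- **Charts from graphs.** -/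
theorem chartSeq_of_graph {Z : ℝ × ℝ → ℝ → Prop} {σ : ℕ → ℝ} {θ₀ : ℝ} {N : ℕ → Set E3}
    {v : ℕ → E2 → ℝ} (hu : ContDiffOn ℝ ∞ u (ball 0 R))
    (hv : ∀ᶠ i in atTop, IsGraph (N i) Q p R h (v i) ∧ ContDiffOn ℝ ∞ (v i) (ball 0 R))
    (hlim : ∀ k : ℕ, TendstoUniformlyOn (fun i => iteratedFDeriv ℝ k (v i)) (iteratedFDeriv ℝ k u)
      atTop (ball 0 R))
    {Ψ : ℝ × (ℝ × ℝ) × ℝ → E3} (hΨ : ∀ᶠ z in 𝓝 ((0, (0, θ₀), 0) : ℝ × (ℝ × ℝ) × ℝ),
      ContDiffAt ℝ ∞ Ψ z) (hp : Ψ (0, (0, θ₀), 0) ∈ cylQ Q p R h)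
    (h0 : ∀ᶠ q in 𝓝 ((0, θ₀) : ℝ × ℝ), gfun Q p u (Ψ (0, q, 0)) = 0)
    (hsurj : ∀ g : E3, (∀ y, ⟪g, fderiv ℝ (fun y => Ψ (0, y)) ((0, θ₀), 0) y⟫ = 0) → g = 0)
    {e : ℕ → ℝ} (he : Tendsto e atTop (𝓝 0))
    (hZ : ∀ᶠ z in 𝓝 ((0, (0, θ₀), 0) : ℝ × (ℝ × ℝ) × ℝ), ∀ i, e i = z.1 →
      (Z (σ i + z.2.1.1, z.2.1.2) z.2.2 ↔ Ψ z ∈ N i)) : ChartSeq Z σ θ₀ := by
  have h1 := hΨ.self_of_nhds.continuousAt.eventually (isOpen_cylQ.mem_nhds hp)
  obtain ⟨δ, hδ, hB⟩ := Metric.eventually_nhds_iff_ball.1 (hΨ.and (h1.and hZ))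
  have hm : ∀ t : ℝ, |t| < δ → ∀ y ∈ ball (((0, θ₀), 0) : (ℝ × ℝ) × ℝ) δ,
      (t, y) ∈ ball ((0, (0, θ₀), 0) : ℝ × (ℝ × ℝ) × ℝ) δ := fun t ht y hy => by
    rw [← ball_prod_same]
    exact ⟨by simpa using ht, hy⟩
  have hsec : ∀ t : ℝ, |t| < δ → ∀ y ∈ ball (((0, θ₀), 0) : (ℝ × ℝ) × ℝ) δ,
      ContDiffAt ℝ ∞ (fun y => Ψ (t, y)) y := fun t ht y hy =>
    ContDiffAt.comp (g := Ψ) y (hB _ (hm t ht y hy)).1 (by fun_prop)
  have hδ' : |(0 : ℝ)| < δ := by simpa using hδ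
  refine ⟨fun i y => gfun Q p (v i) (Ψ (e i, y)), fun y => gfun Q p u (Ψ (0, y)), δ, hδ, h0,
    fun hd => ?_, ?_, fun n y₀ hy₀ y hy => ?_⟩
  · have k1 := ((cdAt_gfun' hu hp).differentiableAt (by simp))
    have k2 := ((hsec 0 hδ' _ (mem_ball_self hδ)).differentiableAt (by simp)).hasFDerivAt
    have k3 := HasFDerivAt.comp (g := gfun Q p u) (f := fun y => Ψ (0, y)) _ k1.hasFDerivAt k2
    have k4 := (HasFDerivAt.comp (g := gfun Q p u ∘ fun y => Ψ (0, y)) ((0, θ₀) : ℝ × ℝ) k3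
      (hasFDerivAt_prodMk_left ((0, θ₀) : ℝ × ℝ) (0 : ℝ))).unique
      ((hasFDerivAt_const (0 : ℝ) _).congr_of_eventuallyEq h0)
    refine grad_gfun_ne k1 (hsurj _ fun y => ?_)
    have k5 := congrArg (fun L : ℝ × ℝ →L[ℝ] ℝ => L y.1) k4
    have k6 := hd
    rw [show (fun y => gfun Q p u (Ψ (0, y))) = gfun Q p u ∘ fun y => Ψ (0, y) from rfl,
      k3.fderiv] at k6
    have e : y = (y.1, 0) + y.2 • (0, 1) := by ext <;> simp
    simp only [ContinuousLinearMap.comp_apply, ContinuousLinearMap.inl_apply, zero_apply] at k5 k6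
    rw [inner_grad, e, map_add, map_add, map_smul, map_smul, k5, k6, smul_zero, add_zero]
  · filter_upwards [hv, he.eventually (ball_mem_nhds 0 hδ)] with i hi hei y hy
    rw [Real.dist_eq, sub_zero] at hei
    obtain ⟨-, k2, k3⟩ := hB _ (hm _ hei y hy)
    exact ⟨ContDiffAt.comp (g := gfun Q p (v i)) y (cdAt_gfun' hi.2 k2) (hsec _ hei y hy),
      (k3 i rfl).trans (graph_mem_iff hi.1 k2)⟩
  · obtain ⟨k1, k2, -⟩ := hB _ (hm 0 hδ' y₀ hy₀)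
    have J1 : JT n atTop (fun i y => (e i, y)) y (fun y => ((0 : ℝ), y)) y₀ :=
      (JT.const he).prodMk (JT.id hy)
    have J2 := (J1.comp_fixed (u := Ψ) (k1.of_le (by exact_mod_cast le_top))).sub
      (JT.const (c := fun _ => p) tendsto_const_nhds)
    have J3 := J2.map (hor Q)
    have J4 := JT.comp (f := fun i z => hor Q (Ψ (e i, z) - p)) (x := y)
      (g := fun z => hor Q (Ψ (0, z) - p)) (y := y₀) (JT.of_unif (n := n) isOpen_ball (by simpa using k2.1) J3.val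
      (hv.mono fun i hi => hi.2) hu hlim) J3
    exact (J2.map (innerSL ℝ (nQ Q))).sub J4

end Vale.Agent.P218TB
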