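import Vale.Agent.P218TB.Chart

/-! # P218, block TB: cylindrical ends -/

open Set Filter Topology Metric
open scoped RealInnerProductSpace ContDiff

namespace Vale.Agent.P218TB

open Vale.Agent.P218UA Vale.Agent.P218UG
open Vale.Agent.P218GA (CylEnd SmoothLim)

lemma surj_of_orth {f : (ℝ × ℝ) × ℝ → E3} {θ₀ : ℝ} (hf : DifferentiableAt ℝ f ((0, θ₀), 0))
    {a b c : E3} (h1 : HasDerivAt (fun t => f ((t, θ₀), 0)) a 0)
    (h2 : HasDerivAt (fun t => f ((0, t), 0)) b θ₀) (h3 : HasDerivAt (fun t => f ((0, θ₀), t)) c 0)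
    (ha : a ≠ 0) (hb : b ≠ 0) (hc : c ≠ 0) (hab : ⟪a, b⟫ = 0) (hac : ⟪a, c⟫ = 0) (hbc : ⟪b, c⟫ = 0)
    (g : E3) (hg : ∀ y, ⟪g, fderiv ℝ f ((0, θ₀), 0) y⟫ = 0) : g = 0 := by
  refine eq_zero_of_orth ha hb hc hab hac hbc ?_ ?_ ?_
  · rw [h1.unique (HasFDerivAt.comp_hasDerivAt (l := f) 0 hf.hasFDerivAt
      (((hasDerivAt_id (0 : ℝ)).prodMk (hasDerivAt_const _ θ₀)).prodMk (hasDerivAt_const _ 0))), hg]
  · rw [h2.unique (HasFDerivAt.comp_hasDerivAt (l := f) θ₀ hf.hasFDerivAt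
      (((hasDerivAt_const _ (0 : ℝ)).prodMk (hasDerivAt_id θ₀)).prodMk (hasDerivAt_const _ 0))), hg]
  · rw [h3.unique (HasFDerivAt.comp_hasDerivAt (l := f) 0 hf.hasFDerivAt
      ((hasDerivAt_const _ ((0 : ℝ), θ₀)).prodMk (hasDerivAt_id (0 : ℝ)))), hg]

/-- the unit vector at the angle `θ` -/
noncomputable def cs (θ : ℝ) : E2 :=
  Real.cos θ • EuclideanSpace.single 0 1 + Real.sin θ • EuclideanSpace.single 1 1

@[simp] lemma cs_zero (θ : ℝ) : cs θ 0 = Real.cos θ := by simp [cs]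

@[simp] lemma cs_one (θ : ℝ) : cs θ 1 = Real.sin θ := by simp [cs]

lemma inner_cs (θ φ : ℝ) : ⟪cs θ, cs φ⟫ = Real.cos (θ - φ) := by
  rw [inner2, Real.cos_sub]; simp

lemma norm_cs (θ : ℝ) : ‖cs θ‖ = 1 := by
  have := inner_cs θ θ
  rw [real_inner_self_eq_norm_sq, sub_self, Real.cos_zero] at this
  exact (pow_eq_one_iff_of_nonneg (norm_nonneg _) two_ne_zero).1 this

lemma cs_periodic (θ : ℝ) : cs (θ + 2 * Real.pi) = cs θ := by simp [cs]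

lemma contDiff_cs {n : WithTop ℕ∞} : ContDiff ℝ n cs := by unfold cs; fun_prop

lemma hasDerivAt_cs (θ : ℝ) : HasDerivAt cs (cs (θ + Real.pi / 2)) θ := by
  rw [cs, Real.cos_add_pi_div_two, Real.sin_add_pi_div_two]
  exact ((Real.hasDerivAt_cos θ).smul_const _).add ((Real.hasDerivAt_sin θ).smul_const _)

lemma exists_polar (ξ : E2) : ∃ θ, ξ = ‖ξ‖ • cs θ := by
  set z : ℂ := ⟨ξ 0, ξ 1⟩ with hz
  have hn : ‖z‖ = ‖ξ‖ := by
    rw [Complex.norm_eq_sqrt_sq_add_sq, EuclideanSpace.norm_eq]; simp [hz, Fin.sum_univ_two]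
  refine ⟨z.arg, ?_⟩
  ext i
  fin_cases i
  · simp [← hn, hz]
  · simp [← hn, hz]

variable {Q : E3 ≃ₗᵢ[ℝ] E3} {S : Set E3}

lemma gT_lin (z : E2 × ℝ) : gT (nQ Q) (lin Q z) = lin Q (z.1, 0) := by
  rw [gT, real_inner_comm, inner_lin_nQ, nQ, ← map_smul, ← map_sub]
  congr 1
  ext <;> simp

lemma norm_lin_zero (ξ : E2) : ‖lin Q (ξ, 0)‖ = ‖ξ‖ := by
  have := norm_lin_sq (Q := Q) (ξ, 0)
  simpa using this

/-- the point at distance `r` from the origin and `ρ` from the axis -/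
noncomputable def cp (Q : E3 ≃ₗᵢ[ℝ] E3) (r θ ρ : ℝ) : E3 := lin Q (ρ • cs θ, √(r ^ 2 - ρ ^ 2))

/-- the same, relative to the point `e⁻¹` on the axis -/
noncomputable def cpsi (Q : E3 ≃ₗᵢ[ℝ] E3) (z : ℝ × (ℝ × ℝ) × ℝ) : E3 :=
  lin Q ((√2 + z.2.2) • cs z.2.1.2, z.2.1.1 - z.1 * (√2 + z.2.2) ^ 2 /
    (1 + z.1 * z.2.1.1 + √((1 + z.1 * z.2.1.1) ^ 2 - z.1 ^ 2 * (√2 + z.2.2) ^ 2)))

lemma cpsi_zero (y : (ℝ × ℝ) × ℝ) : cpsi Q (0, y) = lin Q ((√2 + y.2) • cs y.1.2, y.1.1) := by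
  simp [cpsi]

lemma cpsi_add {r : ℝ} (hr : 0 < r) (y : (ℝ × ℝ) × ℝ) (h1 : 0 < 1 + r⁻¹ * y.1.1)
    (h2 : 0 < (1 + r⁻¹ * y.1.1) ^ 2 - r⁻¹ ^ 2 * (√2 + y.2) ^ 2) :
    cpsi Q (r⁻¹, y) + r • nQ Q = cp Q (r + y.1.1) y.1.2 (√2 + y.2) := by
  rw [cpsi, cp, nQ, ← map_smul, ← map_add]
  congr 1
  refine Prod.ext (by simp) ?_
  simp only [Prod.snd_add, Prod.smul_snd, smul_eq_mul, mul_one]
  set ρ := √2 + y.2
  set A := 1 + r⁻¹ * y.1.1 with hA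
  have e1 : (r + y.1.1) ^ 2 - ρ ^ 2 = r ^ 2 * (A ^ 2 - r⁻¹ ^ 2 * ρ ^ 2) := by rw [hA]; field_simp
  rw [e1, Real.sqrt_mul (sq_nonneg r), Real.sqrt_sq hr.le]
  have e2 := Real.sq_sqrt h2.le
  set B := √(A ^ 2 - r⁻¹ ^ 2 * ρ ^ 2)
  have hB : 0 ≤ B := Real.sqrt_nonneg _
  have e3 : y.1.1 = r * (A - 1) := by rw [hA]; field_simp; ring
  have e4 : ρ ^ 2 = r ^ 2 * (A ^ 2 - B ^ 2) := by rw [e2]; field_simp; ring
  rw [e4, e3]
  field_simp
  ring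

lemma ev_cpsi (y : (ℝ × ℝ) × ℝ) : ∀ᶠ z in 𝓝 ((0, y) : ℝ × (ℝ × ℝ) × ℝ),
    0 < 1 + z.1 * z.2.1.1 ∧ 0 < (1 + z.1 * z.2.1.1) ^ 2 - z.1 ^ 2 * (√2 + z.2.2) ^ 2 :=
  (continuousAt_const.eventually_lt (by fun_prop) (by simp)).and
    (continuousAt_const.eventually_lt (by fun_prop) (by simp))

lemma cdAt_cpsi (y : (ℝ × ℝ) × ℝ) : ∀ᶠ z in 𝓝 ((0, y) : ℝ × (ℝ × ℝ) × ℝ),
    ContDiffAt ℝ ∞ (cpsi Q) z := by
  filter_upwards [ev_cpsi y] with z hz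
  refine (lin Q).contDiff.contDiffAt.comp z (ContDiffAt.prodMk ?_ ?_)
  · have := contDiff_cs (n := ∞)
    fun_prop
  · refine ContDiffAt.sub (by fun_prop) (ContDiffAt.div (by fun_prop)
      (ContDiffAt.add (by fun_prop) (ContDiffAt.sqrt (by fun_prop) hz.2.ne')) ?_)
    have := Real.sqrt_nonneg ((1 + z.1 * z.2.1.1) ^ 2 - z.1 ^ 2 * (√2 + z.2.2) ^ 2)
    linarith [hz.1]

lemma lin_mem_cylS (θ τ : ℝ) : lin Q ((√2 + 0) • cs θ, τ) ∈ cylS (nQ Q) := by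
  rw [cylS, mem_ofPred_eq, gT_lin, norm_lin_zero, norm_smul, norm_cs]
  simp

lemma chartSeq_cyl (hcyl : ∀ R : ℕ → ℝ, Tendsto R atTop atTop →
    SmoothConv (fun i => {x | x + R i • nQ Q ∈ S}) (cylS (nQ Q))) (σ : ℕ → ℝ) (θ₀ : ℝ)
    (hσ : Tendsto σ atTop atTop) :
    ChartSeq (fun q a => cp Q q.1 q.2 (√2 + a) ∈ S) σ θ₀ := by
  have hp : cpsi Q (0, (0, θ₀), 0) ∈ cylS (nQ Q) := by rw [cpsi_zero]; exact lin_mem_cylS _ _
  obtain ⟨Q', R, h, u, v, hR, hh, hS, hu, hv, hlim⟩ := (hcyl σ hσ).near _ hp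
  have hc := (cdAt_cpsi (Q := Q) ((0, θ₀), 0)).self_of_nhds
  refine chartSeq_of_graph hu hv hlim (cdAt_cpsi _) (self_mem_cylQ hR hh) ?_ ?_
    (e := fun i => (max (σ i) 1)⁻¹)
    (tendsto_inv_atTop_zero.comp (tendsto_atTop_mono (fun i => le_max_left _ _) hσ)) ?_
  · have h1 : ContinuousAt (fun q : ℝ × ℝ => cpsi Q (0, q, 0)) (0, θ₀) :=
      ContinuousAt.comp (g := cpsi Q) (f := fun q : ℝ × ℝ => (0, q, 0)) hc.continuousAt
        (by fun_prop)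
    filter_upwards [h1.eventually (isOpen_cylQ.mem_nhds (self_mem_cylQ hR hh))] with q hq
    rw [← graph_mem_iff hS hq, cpsi_zero]
    exact lin_mem_cylS _ _
  · have hl : ∀ {z : E2 × ℝ}, 0 < ‖z.1‖ ^ 2 + z.2 ^ 2 → lin Q z ≠ 0 := fun {z} hz h0 => by
      rw [← norm_lin_sq (Q := Q), h0] at hz; simp at hz
    simp only [cpsi_zero]
    refine surj_of_orth (a := lin Q (0, 1)) (b := lin Q ((√2 + 0) • cs (θ₀ + Real.pi / 2), 0))
      (c := lin Q (cs θ₀, 0)) ?_ ?_ ?_ ?_ (hl (by simp)) (hl (by simp [norm_smul, norm_cs]))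
      (hl (by simp [norm_cs])) (by simp [inner_lin]) (by simp [inner_lin])
      (by simp [inner_lin, real_inner_smul_left, inner_cs])
    · have := contDiff_cs (n := 1).differentiable one_ne_zero
      fun_prop
    · exact (lin Q).hasFDerivAt.comp_hasDerivAt 0
        ((hasDerivAt_const _ ((√2 + 0) • cs θ₀)).prodMk (hasDerivAt_id (0 : ℝ)))
    · exact (lin Q).hasFDerivAt.comp_hasDerivAt θ₀
        (((hasDerivAt_cs θ₀).const_smul (√2 + 0)).prodMk (hasDerivAt_const _ (0 : ℝ)))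
    · refine (lin Q).hasFDerivAt.comp_hasDerivAt 0 (HasDerivAt.prodMk ?_ (hasDerivAt_const _ _))
      simpa using ((hasDerivAt_id (0 : ℝ)).const_add √2).smul_const (cs θ₀)
  · filter_upwards [ev_cpsi ((0, θ₀), 0), continuousAt_fst.eventually_lt continuousAt_const
      (show (((0, (0, θ₀), 0) : ℝ × (ℝ × ℝ) × ℝ)).1 < 1 from zero_lt_one)] with z k1 k2 i hi
    have k3 : 1 < σ i := by
      by_contra hcon
      rw [max_eq_right (not_lt.1 hcon), inv_one] at hi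
      exact k2.ne hi.symm
    rw [max_eq_left k3.le] at hi
    obtain ⟨z1, z2⟩ := z
    simp only at hi k1
    subst hi
    rw [cpsi_add (by linarith) _ k1.1 k1.2]

lemma close_cyl {e : E3} (he : ‖e‖ = 1) (hcyl : ∀ R : ℕ → ℝ, Tendsto R atTop atTop →
    SmoothConv (fun i => {x | x + R i • e ∈ S}) (cylS e)) {η : ℝ} (hη : 0 < η) :
    ∃ R : ℝ, ∀ x ∈ S, R ≤ ⟪e, x⟫ → ‖gT e x‖ ≤ 3 → |‖gT e x‖ - √2| < η := by
  by_contra hcon
  push Not at hcon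
  choose x hx h1 h2 h3 using fun n : ℕ => hcon n
  obtain ⟨y, -, φ, hφ, hlim⟩ := (isCompact_closedBall (0 : E3) 3).tendsto_subseq
    (x := fun n => gT e (x n)) fun n => by simpa using h2 n
  have hc : Continuous (gT e) := by unfold gT; fun_prop
  have k1 : ∀ v, gT e (gT e v) = gT e v := fun v => by
    simp [gT, inner_sub_right, real_inner_smul_right, he]
  have k2 : gT e y = y := tendsto_nhds_unique ((hc.tendsto y).comp hlim)
    (by simpa only [Function.comp_def, k1] using hlim)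
  have k3 : η ≤ |‖y‖ - √2| := ge_of_tendsto' ((hlim.norm.sub_const _).abs) fun n => h3 _
  have k4 : y ∉ cylS e := fun hy => by
    rw [cylS, mem_ofPred_eq, k2] at hy
    rw [← hy, Real.sqrt_sq (norm_nonneg _), sub_self, abs_zero] at k3
    linarith
  obtain ⟨r, hr, hd⟩ := (hcyl (fun i => ⟪e, x (φ i)⟫) (tendsto_atTop_mono (fun i => h1 (φ i))
    (tendsto_natCast_atTop_atTop.comp hφ.tendsto_atTop))).away y k4
  obtain ⟨i, k5, k6⟩ := (hd.and (hlim.eventually (ball_mem_nhds y hr))).exists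
  exact Set.disjoint_left.1 k5 k6 (by simpa [gT] using hx (φ i))

lemma sqrt_two_lt : √2 < 2 := by
  rw [Real.sqrt_lt' two_pos]; norm_num

lemma sub_le_sqrt {r ρ : ℝ} (h : |ρ| ≤ 3) : r - 3 ≤ √(r ^ 2 - ρ ^ 2) := by
  rcases le_total r 3 with h1 | h1
  · linarith [Real.sqrt_nonneg (r ^ 2 - ρ ^ 2)]
  · refine Real.le_sqrt_of_sq_le ?_
    nlinarith [sq_abs ρ, abs_nonneg ρ]

/-- **A cylindrical end.** -/
theorem exists_cylEnd {e : E3} (he : ‖e‖ = 1)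
    (hneck : ∃ ρ > 0, ∃ R : ℝ, ∀ x ∈ S, R ≤ ‖x‖ → ‖‖x‖⁻¹ • x - e‖ < ρ → ‖gT e x‖ ≤ 2)
    (hcyl : ∀ R : ℕ → ℝ, Tendsto R atTop atTop →
      SmoothConv (fun i => {x | x + R i • e ∈ S}) (cylS e)) :
    ∃ A : CylEnd, A.axis = e ∧ ∃ ρ > 0, ∃ R : ℝ, (∀ r, R < r → range (A.pt r) ⊆ S ∩ sphere 0 r) ∧
      ∀ x ∈ S, R < ‖x‖ → ‖‖x‖⁻¹ • x - e‖ < ρ → x ∈ range (A.pt ‖x‖) := by
  obtain ⟨Q, rfl⟩ := exists_frame he
  obtain ⟨ρ₀, hρ₀, R₀, hn⟩ := hneck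
  have h2 := sqrt_two_lt
  have h1 : 1 < √2 := by rw [Real.lt_sqrt zero_le_one]; norm_num
  have hg : ∀ r θ ρ, ‖gT (nQ Q) (cp Q r θ ρ)‖ = |ρ| := fun r θ ρ => by
    rw [cp, gT_lin, norm_lin_zero, norm_smul, norm_cs, mul_one, Real.norm_eq_abs]
  obtain ⟨u, R, hu, hper, hlim, hR⟩ := endGraph (Z := fun q a => cp Q q.1 q.2 (√2 + a) ∈ S)
    one_pos (fun σ θ a => by simp only [cp, cs_periodic]) (chartSeq_cyl hcyl)
    fun σ θ a θ₀ hσ _ ha => by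
      refine Metric.tendsto_nhds.2 fun η hη => ?_
      obtain ⟨R, hR⟩ := close_cyl he hcyl hη
      filter_upwards [hσ.eventually_ge_atTop (R + 3)] with i hi
      have k0 := abs_lt.1 (ha i).1
      have k1 : |√2 + a i| = √2 + a i := abs_of_pos (by linarith)
      have k2 : |√2 + a i| ≤ 3 := by rw [k1]; linarith
      have := hR _ (ha i).2 (by
        rw [cp, real_inner_comm, inner_lin_nQ]; linarith [sub_le_sqrt (r := σ i) k2])
        (by rwa [hg])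
      rwa [hg, k1, add_sub_cancel_left, ← sub_zero (a i), ← Real.dist_eq] at this
  obtain ⟨R₁, hR₁⟩ := close_cyl he hcyl one_pos
  let A : CylEnd := ⟨Q, fun q => √2 + u q, contDiff_const.add hu, fun r θ => by rw [hper],
    by simpa [SmoothLim] using hlim⟩
  have hA : ∀ r θ, A.pt r θ = cp Q r θ (√2 + u (r, θ)) := fun r θ => by
    simp [A, CylEnd.pt, cp, lin_apply]
  refine ⟨A, by simp [A, CylEnd.axis, nQ, lin_apply], min ρ₀ 1, by positivity,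
    max (max R R₀) (max (R₁ + 3) 3), fun r hr => ?_, fun x hx hr hd => ?_⟩
  · rintro _ ⟨θ, rfl⟩
    simp only [max_lt_iff] at hr
    obtain ⟨k1, k2⟩ := hR (r, θ) hr.1.1.le
    refine ⟨hA r θ ▸ (k2 _ k1).2 rfl, ?_⟩
    have k3 := abs_lt.1 k1
    rw [mem_sphere_zero_iff_norm, ← sq_eq_sq₀ (norm_nonneg _) (by linarith [hr.2.2]), hA, cp,
      norm_lin_sq, norm_smul, norm_cs, Real.sq_sqrt (by nlinarith [hr.2.2])]
    simp
  · simp only [max_lt_iff, lt_min_iff] at hr hd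
    have k1 := hn x hx hr.1.2.le hd.1
    obtain ⟨θ, hθ⟩ := exists_polar (hor Q x)
    have k2 : gT (nQ Q) x = lin Q (hor Q x, 0) := by
      conv_lhs => rw [← lin_hor Q x]
      exact gT_lin _
    rw [k2, norm_lin_zero] at k1
    have hx0 : 0 < ‖x‖ := by linarith [hr.2.2]
    have k3 : 0 < ⟪x, nQ Q⟫ := by
      have a1 : ‖‖x‖⁻¹ • x - nQ Q‖ ^ 2 < 1 := by
        nlinarith [norm_nonneg (‖x‖⁻¹ • x - nQ Q), hd.2]
      rw [norm_sub_sq_real, norm_smul, norm_inv, norm_norm, inv_mul_cancel₀ hx0.ne', he,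
        real_inner_smul_left] at a1
      exact (mul_pos_iff_of_pos_left (inv_pos.2 hx0)).1 (by linarith)
    have k4 : ⟪x, nQ Q⟫ = √(‖x‖ ^ 2 - ‖hor Q x‖ ^ 2) := by
      have := norm_lin_sq (Q := Q) (hor Q x, ⟪x, nQ Q⟫)
      rw [lin_hor] at this
      rw [this, add_sub_cancel_left, Real.sqrt_sq k3.le]
    have k5 : x = cp Q ‖x‖ θ (√2 + (‖hor Q x‖ - √2)) := by
      rw [add_sub_cancel, cp, ← hθ, ← k4, lin_hor]
    have k6 := hR₁ x hx (by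
      rw [real_inner_comm, k4]
      linarith [sub_le_sqrt (r := ‖x‖) (ρ := ‖hor Q x‖) (by rw [abs_norm]; linarith), hr.2.1])
      (by rw [k2, norm_lin_zero]; linarith)
    rw [k2, norm_lin_zero] at k6
    refine ⟨θ, ?_⟩
    rw [hA, ← ((hR (‖x‖, θ) hr.1.1.le).2 _ k6).1 (k5 ▸ hx), ← k5]

end Vale.Agent.P218TB
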