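import Vale.Agent.P218TB.Glue
import Vale.Agent.P218TB.Cyl

/-! # P218, block TB: conical ends -/

open Set Filter Topology Metric
open scoped RealInnerProductSpace ContDiff

namespace Vale.Agent.P218TB

open Vale.Agent.P218UA Vale.Agent.P218UG
open Vale.Agent.P218GA (ConeEnd Link SmoothLim)
open Vale.Agent.P218GE (inner_grad norm_grad)

variable {S : Set E3} {D : Finset E3}

/-- the link of the asymptotic cone -/
def link (S : Set E3) (D : Finset E3) : Set E3 := {p | ‖p‖ = 1 ∧ p ∈ lim S ∧ p ∉ D}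

lemma isCompact_link (h : EndStruct S D) : IsCompact (link S D) := by
  choose! ρ hρ hi using fun e he => isolated_of_neck (h.unit e he) (h.neck e he)
  have e : link S D = (sphere 0 1 ∩ lim S) ∩ ⋂ e ∈ D, (ball e (ρ e))ᶜ := by
    ext p
    simp only [link, mem_ofPred_eq, mem_inter_iff, mem_sphere_zero_iff_norm, mem_iInter,
      mem_compl_iff]
    exact ⟨fun ⟨a, b, c⟩ => ⟨⟨a, b⟩, fun e he hp => c (hi e he p b a hp ▸ he)⟩,
      fun ⟨⟨a, b⟩, c⟩ => ⟨a, b, fun hp => c p hp (mem_ball_self (hρ p hp))⟩⟩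
  rw [e]
  exact ((isCompact_sphere 0 1).inter_right isClosed_lim).inter_right
    (isClosed_biInter fun e _ => isOpen_ball.isClosed_compl)

/-- a global defining function of the link -/
theorem exists_link_fun {W : E3 → ℝ} (hW : IsSurf W) (h : EndStruct {x | W x = 0} D) :
    ∃ (Ω : Set E3) (F : E3 → ℝ), IsOpen Ω ∧ link {x | W x = 0} D ⊆ Ω ∧ ContDiff ℝ ∞ F ∧
      (∀ x ∈ Ω, x ∈ link {x | W x = 0} D ↔ ‖x‖ = 1 ∧ F x = 0) ∧
      ∀ x ∈ link {x | W x = 0} D, gradient F x ≠ 0 ∧ ⟪gradient F x, x⟫ = 0 := by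
  obtain ⟨Ω, F, h1, h2, h3, h4⟩ := glue (Z := lim {x | W x = 0}) (isCompact_link h)
    (pos := fun x => ∀ᶠ s in 𝓝[>] (0 : ℝ), 0 < W (s⁻¹ • x))
    (neg := fun x => ∀ᶠ s in 𝓝[>] (0 : ℝ), W (s⁻¹ • x) < 0)
    (fun x a b => by
      obtain ⟨s, h1, h2⟩ := (a.and b).exists
      exact lt_asymm h1 h2) fun e he => by
      obtain ⟨Q, ρ, s₀, u, hc⟩ := exists_con h he.1 he.2.2 he.2.1
      obtain ⟨τ, hτ, hs⟩ := hc.sign hW
      have hτ0 : τ ≠ 0 := by rcases hτ with rfl | rfl <;> norm_num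
      refine ⟨cylQ Q e ρ ρ, fun x => τ * gfun Q e (u 0) x, isOpen_cylQ,
        self_mem_cylQ hc.ρpos hc.ρpos, fun x hx => ⟨contDiffAt_const.mul (cdAt_gfun' hc.cd0 hx),
        by rw [hc.mem_lim hx, mul_eq_zero, or_iff_right hτ0], fun h0 => ?_, fun h0 => ?_,
        fun h0 => ?_⟩⟩
      · filter_upwards [((hc.tendsto hx).const_mul τ).eventually (lt_mem_nhds h0),
          Ioo_mem_nhdsGT hc.spos] with s a b using (hs s b x hx).1 a
      · filter_upwards [((hc.tendsto hx).const_mul τ).eventually (gt_mem_nhds h0),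
          Ioo_mem_nhdsGT hc.spos] with s a b using (hs s b x hx).2 a
      · have k := (cdAt_gfun' hc.cd0 hx).differentiableAt (by simp)
        have k1 := inner_grad (fun x => τ * gfun Q e (u 0) x) x (nQ Q)
        rw [h0, inner_zero_left, fderiv_const_mul k, smul_apply, fderiv_gfun k] at k1
        exact hτ0 (by simpa using k1.symm)
  refine ⟨Ω \ D, F, h1.sdiff D.finite_toSet.isClosed, fun x hx => ⟨h2 hx, hx.2.2⟩, h3,
    fun x hx => ⟨fun a => ⟨a.1, (h4 x hx.1).1.1 a.2.1⟩, fun a => ⟨a.1, (h4 x hx.1).1.2 a.2, hx.2⟩⟩,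
    fun x hx => ⟨(h4 x (h2 hx)).2 hx.2.1, ?_⟩⟩
  have k1 : HasDerivAt (fun c : ℝ => c • x) x 1 := by
    simpa using (hasDerivAt_id (1 : ℝ)).smul_const x
  have k2 := HasFDerivAt.comp_hasDerivAt_of_eq 1 (h3.differentiable (by simp) x).hasFDerivAt k1
    (by simp)
  rw [inner_grad]
  refine k2.unique ((hasDerivAt_const (1 : ℝ) (0 : ℝ)).congr_of_eventuallyEq ?_)
  filter_upwards [k1.continuousAt.preimage_mem_nhds (h1.mem_nhds (by simpa using h2 hx)),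
    lt_mem_nhds (zero_lt_one' ℝ)] with c a b
  exact (h4 _ a).1.1 (smul_mem_lim hx.2.1 b)

/-- the point of the sphere at the angle `a` over `γ θ` -/
noncomputable def lp (L : Link) (θ a : ℝ) : E3 := Real.cos a • L.γ θ + Real.sin a • L.n θ

lemma lp_zero (L : Link) (θ : ℝ) : lp L θ 0 = L.γ θ := by simp [lp]

lemma lp_periodic (L : Link) (θ a : ℝ) : lp L (θ + 2 * Real.pi) a = lp L θ a := by
  rw [lp, lp, L.γ_periodic, L.n_periodic]

lemma norm_lp (L : Link) (θ a : ℝ) : ‖lp L θ a‖ = 1 := by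
  rw [← sq_eq_sq₀ (norm_nonneg _) zero_le_one, lp, norm_add_sq_real, real_inner_smul_left,
    real_inner_smul_right, real_inner_comm, L.orth, norm_smul, norm_smul, L.γ_unit, L.n_unit]
  simp

lemma contDiff_lp (L : Link) : ContDiff ℝ ∞ fun z : ℝ × ℝ => lp L z.1 z.2 := by
  have := L.γ_smooth
  have := L.n_smooth
  unfold lp
  fun_prop

lemma hasDerivAt_γ (L : Link) (θ : ℝ) : HasDerivAt L.γ (deriv L.γ θ) θ :=
  (L.γ_smooth.differentiable (by simp) θ).hasDerivAt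

lemma inner_γ_deriv (L : Link) (θ : ℝ) : ⟪L.γ θ, deriv L.γ θ⟫ = 0 := by
  have h := ((hasDerivAt_γ L θ).inner ℝ (hasDerivAt_γ L θ)).unique
    ((hasDerivAt_const θ (1 : ℝ)).congr_of_eventuallyEq (.of_forall fun t => by
      simp only [real_inner_self_eq_norm_sq, L.γ_unit, one_pow]))
  rw [real_inner_comm (L.γ θ)] at h
  linarith

lemma γ_ne (L : Link) (θ : ℝ) : L.γ θ ≠ 0 := norm_ne_zero_iff.1 (by rw [L.γ_unit]; simp)

lemma n_ne (L : Link) (θ : ℝ) : L.n θ ≠ 0 := norm_ne_zero_iff.1 (by rw [L.n_unit]; simp)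

lemma dγ_ne (L : Link) (θ : ℝ) : deriv L.γ θ ≠ 0 :=
  norm_ne_zero_iff.1 (by rw [L.speed]; exact L.c_pos.ne')

lemma chartSeq_cone (L : Link) {Z : ℝ × ℝ → ℝ → Prop} {σ : ℕ → ℝ} {θ₀ : ℝ} {N : ℕ → Set E3}
    {Q : E3 ≃ₗᵢ[ℝ] E3} {ρ s₀ : ℝ} {u : ℝ → E2 → ℝ} (hc : Con S (L.γ θ₀) Q ρ s₀ u)
    (hL : ∀ θ, L.γ θ ∈ lim S) {v : ℕ → E2 → ℝ}
    (hv : ∀ᶠ i in atTop, IsGraph (N i) Q (L.γ θ₀) ρ ρ (v i) ∧ ContDiffOn ℝ ∞ (v i) (ball 0 ρ))
    (hlim : ∀ k : ℕ, TendstoUniformlyOn (fun i => iteratedFDeriv ℝ k (v i))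
      (iteratedFDeriv ℝ k (u 0)) atTop (ball 0 ρ))
    (hZ : ∀ i τ θ a, Z (σ i + τ, θ) a ↔ Real.exp τ • lp L θ a ∈ N i) : ChartSeq Z σ θ₀ := by
  have hΨ : ContDiff ℝ ∞ fun z : ℝ × (ℝ × ℝ) × ℝ => Real.exp z.2.1.1 • lp L z.2.1.2 z.2.2 :=
    (Real.contDiff_exp.comp (by fun_prop)).smul
      ((contDiff_lp L).comp (f := fun z : ℝ × (ℝ × ℝ) × ℝ => (z.2.1.2, z.2.2)) (by fun_prop))
  have hp : Real.exp 0 • lp L θ₀ 0 ∈ cylQ Q (L.γ θ₀) ρ ρ := by
    simpa [lp_zero] using self_mem_cylQ hc.ρpos hc.ρpos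
  refine chartSeq_of_graph hc.cd0 hv hlim (.of_forall fun _ => hΨ.contDiffAt) hp ?_ ?_
    (e := fun _ => 0) tendsto_const_nhds (.of_forall fun z i _ => hZ i _ _ _)
  · have h1 : Continuous fun q : ℝ × ℝ => Real.exp q.1 • lp L q.2 0 :=
      hΨ.continuous.comp (f := fun q : ℝ × ℝ => (0, q, 0)) (by fun_prop)
    filter_upwards [h1.continuousAt.preimage_mem_nhds (isOpen_cylQ.mem_nhds hp)] with q hq
    exact (hc.mem_lim hq).1 (smul_mem_lim (by rw [lp_zero]; exact hL _) (Real.exp_pos _))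
  · refine surj_of_orth (a := L.γ θ₀) (b := deriv L.γ θ₀) (c := L.n θ₀)
      ((hΨ.comp (f := fun y : (ℝ × ℝ) × ℝ => ((0 : ℝ), y)) (by fun_prop)).differentiable (by simp) _)
      ?_ ?_ ?_ (γ_ne L _) (dγ_ne L _) (n_ne L _) (inner_γ_deriv L _)
      (by rw [real_inner_comm, L.orth]) (by rw [real_inner_comm, L.orth'])
    · simpa [lp_zero] using (Real.hasDerivAt_exp 0).smul_const (L.γ θ₀)
    · simpa [lp_zero] using hasDerivAt_γ L θ₀
    · simpa [lp] using ((Real.hasDerivAt_cos 0).smul_const (L.γ θ₀)).fun_add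
        ((Real.hasDerivAt_sin 0).smul_const (L.n θ₀))

lemma Con.isGraph {e : E3} {Q : E3 ≃ₗᵢ[ℝ] E3} {ρ s₀ : ℝ} {u : ℝ → E2 → ℝ}
    (h : Con S e Q ρ s₀ u) : IsGraph (lim S) Q e ρ ρ (u 0) := by
  intro ξ hξ
  have hm : ∀ s, |s| < ρ → pt Q e ξ s ∈ cylQ Q e ρ ρ := fun s hs =>
    ⟨by rwa [hor_pt], by rwa [real_inner_comm, inner_pt]⟩
  have hg : ∀ (v : E2 → ℝ) s, gfun Q e v (pt Q e ξ s) = s - v ξ := fun v s => by
    rw [gfun, hor_pt, real_inner_comm, inner_pt]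
  refine ⟨?_, fun s hs => by rw [h.mem_lim (hm s hs), hg, sub_eq_zero]⟩
  have h1 := (h.tendsto (hm 0 (by simpa using h.ρpos))).abs
  simp only [hg, zero_sub, abs_neg] at h1
  have h2 : |u 0 ξ| ≤ 1 / 2 * ρ := le_of_tendsto h1 (by
    filter_upwards [Ioo_mem_nhdsGT h.spos] with s hs using (h.gr s hs).2.2 ξ (by simpa using hξ))
  linarith [h.ρpos]

lemma tendsto_exp_neg {σ : ℕ → ℝ} (hσ : Tendsto σ atTop atTop) :
    Tendsto (fun i => Real.exp (-σ i)) atTop (𝓝[>] 0) :=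
  tendsto_nhdsWithin_iff.2 ⟨Real.tendsto_exp_neg_atTop_nhds_zero.comp hσ,
    .of_forall fun _ => Real.exp_pos _⟩

/-- the normal segments of a fixed length meet the asymptotic cone only on the link -/
lemma exists_width (h : EndStruct S D) (L : Link) (hL : ∀ θ, L.γ θ ∈ link S D) :
    ∃ ε > 0, ∀ θ a, |a| ≤ ε → lp L θ a ∈ lim S → a = 0 := by
  obtain ⟨R, hR⟩ := unif_of_seq
    (P := fun q => ∀ a, |a| ≤ Real.exp (-q.1) → lp L q.2 a ∈ lim S → a = 0)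
    (fun σ θ => by simp only [lp_periodic]) fun σ θ θ₀ hσ hθ => by
      by_contra hcon
      push Not at hcon
      choose a k1 k2 k3 using hcon
      obtain ⟨Q, ρ, s₀, u, hc⟩ := exists_con h (hL θ₀).1 (hL θ₀).2.2 (hL θ₀).2.1
      have k4 : ChartSeq (fun q a => lp L q.2 a ∈ lim S) σ θ₀ :=
        chartSeq_cone L hc (fun θ => (hL θ).2.1) (N := fun _ => lim S) (v := fun _ => u 0)
          (.of_forall fun _ => ⟨hc.isGraph, hc.cd0⟩)
          (fun k => Metric.tendstoUniformlyOn_iff.2 fun ε hε => by simp [hε])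
          fun i τ θ a => (smul_mem_lim_iff (Real.exp_pos τ)).symm
      have k5 : Tendsto a atTop (𝓝 0) := squeeze_zero_norm k1
        (Real.tendsto_exp_neg_atTop_nhds_zero.comp hσ)
      have k6 : ∀ i, lp L (θ i) 0 ∈ lim S := fun i => by rw [lp_zero]; exact (hL _).2.1
      refine k4.unique hθ (a := fun i => min (a i) 0) (a' := fun i => max (a i) 0)
        (by simpa using k5.min (tendsto_const_nhds (x := (0 : ℝ))))
        (by simpa using k5.max (tendsto_const_nhds (x := (0 : ℝ))))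
        (fun i => ?_) (fun i => ?_) fun i => min_lt_max.2 (k3 i)
      · rcases min_choice (a i) 0 with e | e <;> simp only [e] <;> [exact k2 i; exact k6 i]
      · rcases max_choice (a i) 0 with e | e <;> simp only [e] <;> [exact k2 i; exact k6 i]
  exact ⟨Real.exp (-R), Real.exp_pos _, fun θ a => hR (R, θ) le_rfl a⟩

/-- tubular coordinates -/
lemma exists_lp (L : Link) {ε : ℝ} (hε : 0 < ε) : ∃ ρ > 0, ∀ x : E3, ‖x‖ = 1 → ∀ θ₀,
    ‖x - L.γ θ₀‖ < ρ → ∃ θ a, |a| < ε ∧ x = lp L θ a := by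
  obtain ⟨ρ, hρ, h1⟩ := Metric.continuousAt_iff.1 (Real.continuous_arcsin.continuousAt (x := 0)) ε hε
  refine ⟨min ρ 1, by positivity, fun x hx θ₀ hd => ?_⟩
  rw [lt_min_iff] at hd
  have hc : Continuous fun θ => ⟪x, L.γ θ⟫ := continuous_const.inner L.γ_smooth.continuous
  obtain ⟨θ, -, hθ⟩ := isCompact_Icc.exists_isMaxOn (nonempty_Icc.2 Real.two_pi_pos.le)
    hc.continuousOn
  have hmax : ∀ t, ⟪x, L.γ t⟫ ≤ ⟪x, L.γ θ⟫ := fun t => by
    obtain ⟨t', ht, e⟩ := L.γ_periodic.exists_mem_Ico₀ Real.two_pi_pos t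
    rw [e]; exact hθ (Ico_subset_Icc_self ht)
  have k1 : ⟪x, deriv L.γ θ⟫ = 0 := by
    have := IsLocalMax.hasDerivAt_eq_zero (Eventually.of_forall hmax)
      ((hasDerivAt_const θ x).inner ℝ (hasDerivAt_γ L θ))
    simpa using this
  set α := ⟪x, L.γ θ⟫ with hα
  set β := ⟪x, L.n θ⟫ with hβ
  have o1 : ⟪L.γ θ, L.n θ⟫ = 0 := by rw [real_inner_comm, L.orth]
  have k2 : x - (α • L.γ θ + β • L.n θ) = 0 := by
    refine eq_zero_of_orth (γ_ne L θ) (dγ_ne L θ) (n_ne L θ) (inner_γ_deriv L θ) o1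
      (by rw [real_inner_comm, L.orth']) ?_ ?_ ?_ <;>
    simp only [inner_sub_left, inner_add_left, real_inner_smul_left, real_inner_self_eq_norm_sq,
      L.γ_unit, L.n_unit, L.orth, L.orth', o1, k1, inner_γ_deriv, ← hα, ← hβ] <;> ring
  rw [sub_eq_zero] at k2
  have k3 : α ^ 2 + β ^ 2 = 1 := by
    have := congrArg (fun v => ⟪x, v⟫) k2
    simp only [inner_add_right, real_inner_smul_right, real_inner_self_eq_norm_sq, hx, ← hα,
      ← hβ] at this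
    linarith
  have k4 : ‖x - L.γ θ₀‖ ^ 2 = 2 - 2 * ⟪x, L.γ θ₀⟫ := by
    rw [norm_sub_sq_real, hx, L.γ_unit]; ring
  have k5 := hmax θ₀
  have k6 : 0 ≤ α := by nlinarith [norm_nonneg (x - L.γ θ₀), hd.2]
  have k7 : |β| ≤ ‖x - L.γ θ₀‖ := abs_le_of_sq_le_sq (by nlinarith) (norm_nonneg _)
  have k8 := abs_le.1 (k7.trans hd.2.le)
  refine ⟨θ, Real.arcsin β, by simpa using h1 (x := β) (by simpa using k7.trans_lt hd.1), ?_⟩
  rw [lp, Real.cos_arcsin, Real.sin_arcsin k8.1 k8.2, ← k3, add_sub_cancel_right,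
    Real.sqrt_sq k6, ← k2]

/-- **A conical end.** -/
theorem exists_coneEnd (h : EndStruct S D) (L : Link) (hL : ∀ θ, L.γ θ ∈ link S D) :
    ∃ B : ConeEnd, B.toLink = L ∧ ∃ ρ > 0, ∃ R : ℝ,
      (∀ r, R < r → range (B.pt r) ⊆ S ∩ sphere 0 r) ∧
      ∀ x ∈ S, R < ‖x‖ → ∀ θ₀, ‖‖x‖⁻¹ • x - L.γ θ₀‖ < ρ → x ∈ range (B.pt ‖x‖) := by
  obtain ⟨ε, hε, hw⟩ := exists_width h L hL
  obtain ⟨u, R, hu, hper, hlim, hR⟩ := endGraph
    (Z := fun q a => Real.exp q.1 • lp L q.2 a ∈ S) hε (fun σ θ a => by simp only [lp_periodic])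
    (fun σ θ₀ hσ => by
      obtain ⟨Q, ρ, s₀, u, hc⟩ := exists_con h (hL θ₀).1 (hL θ₀).2.2 (hL θ₀).2.1
      refine chartSeq_cone L hc (fun θ => (hL θ).2.1)
        (N := fun i => {x | (Real.exp (-σ i))⁻¹ • x ∈ S}) (v := fun i => u (Real.exp (-σ i))) ?_
        (fun k => (hc.unif k).seq_tendstoUniformlyOn _ (tendsto_exp_neg hσ)) fun i τ θ a => ?_
      · filter_upwards [(tendsto_exp_neg hσ).eventually (Ioo_mem_nhdsGT hc.spos)] with i hi
        exact ⟨(hc.gr _ hi).1, (hc.gr _ hi).2.1⟩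
      · rw [mem_ofPred_eq, Real.exp_neg, inv_inv, smul_smul, Real.exp_add])
    fun σ θ a θ₀ hσ hθ ha => by
      refine tendsto_of_subseq_tendsto fun ns hns => ?_
      obtain ⟨b, hb, ms, hms, hlim⟩ := (isCompact_Icc (a := -ε) (b := ε)).tendsto_subseq
        (x := fun n => a (ns n)) fun n => abs_le.1 (ha _).1.le
      have k1 := hns.comp hms.tendsto_atTop
      have k2 : lp L θ₀ b ∈ lim S := mem_lim_of_tendsto (tendsto_exp_neg (hσ.comp k1))
        (((contDiff_lp L).continuous.tendsto (θ₀, b)).comp ((hθ.comp k1).prodMk_nhds hlim))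
        (.of_forall fun i => by simpa [Real.exp_neg] using (ha (ns (ms i))).2)
      exact ⟨ms, hw θ₀ b (abs_le.2 hb) k2 ▸ hlim⟩
  obtain ⟨ρ, hρ, hlp⟩ := exists_lp L hε
  let B : ConeEnd := ⟨L, u, hu, hper, hlim⟩
  have hB : ∀ r θ, B.pt r θ = r • lp L θ (u (Real.log r, θ)) := fun r θ => rfl
  have hlog : ∀ r, Real.exp R < r → 0 < r ∧ R ≤ Real.log r := fun r hr =>
    ⟨(Real.exp_pos R).trans hr, (Real.le_log_iff_exp_le ((Real.exp_pos R).trans hr)).2 hr.le⟩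
  refine ⟨B, rfl, ρ, hρ, Real.exp R, fun r hr => ?_, fun x hx hr θ₀ hd => ?_⟩
  · rintro _ ⟨θ, rfl⟩
    obtain ⟨r0, r1⟩ := hlog r hr
    obtain ⟨k1, k2⟩ := hR (Real.log r, θ) r1
    have k3 := (k2 _ k1).2 rfl
    simp only [Real.exp_log r0] at k3
    exact ⟨k3, by rw [mem_sphere_zero_iff_norm, hB, norm_smul, norm_lp, mul_one,
      Real.norm_of_nonneg r0.le]⟩
  · obtain ⟨r0, r1⟩ := hlog _ hr
    obtain ⟨θ, a, ha, e⟩ := hlp _ (by rw [norm_smul, norm_inv, norm_norm, inv_mul_cancel₀ r0.ne'])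
      θ₀ hd
    have e1 : ‖x‖ • lp L θ a = x := by rw [← e, smul_inv_smul₀ r0.ne']
    refine ⟨θ, ?_⟩
    rw [hB, ← ((hR (Real.log ‖x‖, θ) r1).2 a ha).1 (by simpa only [Real.exp_log r0, e1] using hx), e1]

end Vale.Agent.P218TB
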