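import Vale.Agent.P218TB.Cone
import Vale.Agent.P218GE.PB

/-! # P218, block TB: the ball condition on the ends -/

open Set Filter Topology Metric
open scoped RealInnerProductSpace ContDiff

namespace Vale.Agent.P218TB

open Vale.Agent.P218UA Vale.Agent.P218UG
open Vale.Agent.P218GA (CylEnd ConeEnd Link SmoothLim)
open Vale.Agent.P218GE (PB Bd nor inner_grad norm_unit_sub_le)

lemma two_le_inf : ((2 : ℕ) : WithTop ℕ∞) ≤ ∞ := WithTop.coe_le_coe.2 (le_top : (2 : ℕ∞) ≤ ⊤)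

section General

variable {X F : Type} [NormedAddCommGroup X] [NormedSpace ℝ X] [NormedAddCommGroup F]
  [NormedSpace ℝ F]

lemma taylor_pb {U : Set X} {Y : X → F} (h : PB 2 (fun _ => 1) U Y) (hU : Convex ℝ U) :
    ∃ M, 0 ≤ M ∧ ∀ q ∈ U, ‖Y q‖ ≤ M ∧ ∀ q' ∈ U, ‖Y q' - Y q‖ ≤ M * ‖q' - q‖ ∧
      ‖Y q' - Y q - fderiv ℝ Y q (q' - q)‖ ≤ M * ‖q' - q‖ ^ 2 := by
  obtain ⟨K0, _, h0, b0⟩ := h.bd0
  obtain ⟨K1, _, h1, b1⟩ := h.fderiv.bd0
  obtain ⟨K2, _, h2, b2⟩ := h.fderiv.fderiv.bd0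
  simp only [one_pow, mul_one] at b0 b1 b2
  refine ⟨K0 + K1 + K2, by positivity, fun q hq => ⟨by linarith [b0 q hq], fun q' hq' => ⟨?_, ?_⟩⟩⟩
  · exact hU.norm_image_sub_le_of_norm_fderiv_le (fun z hz => h.diffAt hz)
      (fun z hz => by linarith [b1 z hz]) hq hq'
  · have hs := hU.segment_subset hq hq'
    have key := (convex_segment q q').norm_image_sub_le_of_norm_hasFDerivWithin_le'
      (f := Y) (f' := fderiv ℝ Y) (φ := fderiv ℝ Y q) (C := K2 * ‖q' - q‖)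
      (fun p hp => (h.diffAt (hs hp)).hasFDerivAt.hasFDerivWithinAt)
      (fun p hp => (hU.norm_image_sub_le_of_norm_fderiv_le (fun z hz => h.fderiv.diffAt hz) b2 hq
        (hs hp)).trans (by gcongr; exact norm_sub_le_of_mem_segment hp))
      (left_mem_segment ℝ q q') (right_mem_segment ℝ q q')
    refine key.trans ?_
    nlinarith [mul_nonneg (add_nonneg h0 h1) (sq_nonneg ‖q' - q‖)]

lemma pb_periodic {γ : ℝ → F} (h : ContDiff ℝ ∞ γ) (hp : Function.Periodic γ (2 * Real.pi)) :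
    PB 2 (fun _ => 1) univ γ := by
  refine ⟨isOpen_univ, fun _ => le_rfl, (h.of_le two_le_inf).contDiffOn,
    fun i _ => ?_⟩
  have h1 : Function.Periodic (iteratedFDeriv ℝ i γ) (2 * Real.pi) := fun t => by
    rw [← iteratedFDeriv_comp_add_right, show (fun z => γ (z + 2 * Real.pi)) = γ from funext hp]
  obtain ⟨C, hC⟩ := (h1.isBounded_of_continuous Real.two_pi_pos.ne'
    (h.continuous_iteratedFDeriv (by exact_mod_cast le_top))).exists_norm_le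
  exact Bd.of_bound fun z _ => hC _ ⟨z, rfl⟩

/-- the half plane -/
def hpl (R : ℝ) : Set (ℝ × ℝ) := {q | R < q.1}

lemma isOpen_hpl (R : ℝ) : IsOpen (hpl R) := isOpen_lt continuous_const continuous_fst

lemma convex_hpl (R : ℝ) : Convex ℝ (hpl R) :=
  (convex_Ioi R).linear_preimage (LinearMap.fst ℝ ℝ ℝ)

lemma pb_snd {γ : ℝ → F} (h : ContDiff ℝ ∞ γ) (hp : Function.Periodic γ (2 * Real.pi)) (R : ℝ) :
    PB 2 (fun _ => 1) (hpl R) fun q => γ q.2 :=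
  (pb_periodic h hp).comp' (f' := fun _ => ContinuousLinearMap.snd ℝ ℝ ℝ)
    (fun _ _ => hasFDerivAt_snd) (PB.const (isOpen_hpl R) (fun _ => le_rfl) _) (mapsTo_univ _ _)
    (Bd.const _)

lemma pb_lim {f : ℝ × ℝ → ℝ} {c : ℝ} (h : ContDiff ℝ ∞ f) (hl : SmoothLim f c) :
    ∀ᶠ R in atTop, PB 2 (fun _ => 1) (hpl R) f := by
  choose R hR using fun n => hl n 1 one_pos
  filter_upwards [eventually_ge_atTop (R 0), eventually_ge_atTop (R 1), eventually_ge_atTop (R 2)]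
    with T h0 h1 h2
  have : PB 2 (fun _ => 1) (hpl T) fun q => f q - c := by
    refine ⟨isOpen_hpl T, fun _ => le_rfl,
      ((h.sub contDiff_const).of_le two_le_inf).contDiffOn, fun i hi => ?_⟩
    refine Bd.of_bound (C := 1) fun z (hz : T < z.1) => hR i z ?_
    interval_cases i <;> linarith
  simpa using this.add (PB.const (isOpen_hpl T) (fun _ => le_rfl) c)

lemma small_lim {f : ℝ × ℝ → ℝ} {c ε : ℝ} (h : ContDiff ℝ ∞ f) (hl : SmoothLim f c) (hε : 0 < ε) :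
    ∀ᶠ R in atTop, ∀ q ∈ hpl R, |f q - c| ≤ ε ∧ ∀ q' ∈ hpl R, |f q' - f q| ≤ ε * ‖q' - q‖ := by
  obtain ⟨R0, h0⟩ := hl 0 ε hε
  obtain ⟨R1, h1⟩ := hl 1 ε hε
  filter_upwards [eventually_ge_atTop R0, eventually_ge_atTop R1] with T k0 k1 q hq
  refine ⟨by simpa using h0 q (k0.trans (le_of_lt hq)), fun q' hq' => ?_⟩
  refine (convex_hpl T).norm_image_sub_le_of_norm_fderiv_le (𝕜 := ℝ)
    (fun z _ => h.differentiable (by simp) z) (fun z hz => ?_) hq hq'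
  have := h1 z (k1.trans (le_of_lt hz))
  rwa [← norm_iteratedFDeriv_fderiv, norm_iteratedFDeriv_zero, fderiv_sub_const] at this

end General

lemma curve_lower (L : Link) :
    ∃ c > 0, ∀ θ h : ℝ, |h| ≤ Real.pi → c * |h| ≤ ‖L.γ (θ + h) - L.γ θ‖ := by
  have hc := L.γ_smooth.continuous
  have key : ∀ᶠ c in 𝓝 (0 : ℝ), ∀ z ∈ Icc 0 (2 * Real.pi) ×ˢ Icc (-Real.pi) Real.pi,
      c * |z.2| ≤ ‖L.γ (z.1 + z.2) - L.γ z.1‖ := by
    refine (isCompact_Icc.prod isCompact_Icc).eventually_forall_of_forall_eventually ?_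
    rintro ⟨θ, h⟩ ⟨-, hh⟩
    by_cases h0 : h = 0
    · subst h0
      have k1 := ((L.γ_smooth.contDiffAt (x := θ)).hasStrictDerivAt (by simp)).hasStrictFDerivAt
      have k2 := (hasStrictFDerivAt_iff_isLittleO.1 k1).def (half_pos L.c_pos)
      have k3 : Tendsto (fun w : ℝ × ℝ × ℝ => (w.2.1 + w.2.2, w.2.1)) (𝓝 (0, θ, 0)) (𝓝 (θ, θ)) := by
        have : Continuous fun w : ℝ × ℝ × ℝ => (w.2.1 + w.2.2, w.2.1) := by fun_prop
        simpa using this.tendsto (0, θ, 0)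
      filter_upwards [k3.eventually k2, continuousAt_fst.eventually_lt continuousAt_const
        (show ((0, θ, 0) : ℝ × ℝ × ℝ).1 < L.c / 2 from half_pos L.c_pos)] with w a b
      simp only [add_sub_cancel_left, ContinuousLinearMap.toSpanSingleton_apply,
        Real.norm_eq_abs] at a
      have k4 := norm_sub_norm_le (w.2.2 • deriv L.γ θ) (L.γ (w.2.1 + w.2.2) - L.γ w.2.1)
      rw [norm_smul, L.speed, norm_sub_rev (w.2.2 • _), Real.norm_eq_abs] at k4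
      nlinarith [abs_nonneg w.2.2]
    · refine (ContinuousAt.eventually_lt (by fun_prop) (by fun_prop) ?_).mono fun _ => le_of_lt
      simp only [zero_mul, norm_pos_iff, sub_ne_zero]
      intro e
      have hp := Real.two_pi_pos
      have k1 : ∀ t, L.γ (toIcoMod hp 0 t) = L.γ t := fun t => L.γ_periodic.sub_zsmul_eq _
      obtain ⟨n, hn⟩ := (toIcoMod_eq_toIcoMod hp).1 (L.inj (toIcoMod_mem_Ico' hp θ)
        (toIcoMod_mem_Ico' hp (θ + h)) (by rw [k1, k1, e]))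
      rw [add_sub_cancel_left, zsmul_eq_mul] at hn
      have k2 : |(n : ℝ)| < 1 := by
        have := abs_le.2 hh
        rw [hn, abs_mul, abs_of_pos hp] at this
        nlinarith [Real.pi_pos]
      have k3 : n = 0 := Int.abs_lt_one_iff.1 (by exact_mod_cast k2)
      exact h0 (by simp [hn, k3])
  obtain ⟨c, hc1, hc2⟩ := ((key.filter_mono nhdsWithin_le_nhds).and
    (self_mem_nhdsWithin (s := Ioi (0 : ℝ)))).exists
  refine ⟨c, hc2, fun θ h hh => ?_⟩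
  have hp : Function.Periodic (fun θ => ‖L.γ (θ + h) - L.γ θ‖) (2 * Real.pi) := fun θ => by
    simp only [add_right_comm θ, L.γ_periodic _]
  obtain ⟨t, ht, e⟩ := hp.exists_mem_Ico₀ Real.two_pi_pos θ
  rw [e]
  exact hc1 (t, h) ⟨Ico_subset_Icc_self ht, abs_le.1 hh⟩

variable {Φ : E3 → ℝ}

lemma nor_orth {X : ℝ × ℝ → E3} {q : ℝ × ℝ} {X' : ℝ × ℝ →L[ℝ] E3} (hX : HasFDerivAt X X' q)
    (hΦ : DifferentiableAt ℝ Φ (X q)) (h0 : ∀ᶠ p in 𝓝 q, Φ (X p) = 0) (v : ℝ × ℝ) :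
    ⟪nor Φ (X q), X' v⟫ = 0 := by
  have := (HasFDerivAt.comp (g := Φ) q hΦ.hasFDerivAt hX).unique
    ((hasFDerivAt_const (0 : ℝ) q).congr_of_eventuallyEq h0)
  have h1 : fderiv ℝ Φ (X q) (X' v) = 0 := by
    simpa using congrArg (fun L : ℝ × ℝ →L[ℝ] ℝ => L v) this
  rw [inner_nor, h1, mul_zero]

lemma norm_nor_le (x : E3) : ‖nor Φ x‖ ≤ 1 := by
  by_cases h : gradient Φ x = 0
  · simp [nor, h]
  · exact (norm_nor h).le

/-- the ball condition on one end -/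
def EndBall (Φ : E3 → ℝ) (pt : ℝ → ℝ → E3) : Prop :=
  ∀ᶠ T in atTop, ∀ x y : E3, T < ‖x‖ → T < ‖y‖ → x ∈ range (pt ‖x‖) → y ∈ range (pt ‖y‖) →
    ‖y - x‖ ≤ 1 → |⟪nor Φ x, y - x⟫| ≤ T * ‖y - x‖ ^ 2

/-- the asymptotic directions of an end -/
def EndDir (pt : ℝ → ℝ → E3) (Δ : Set E3) : Prop :=
  IsCompact Δ ∧ ∀ ε > 0, ∀ᶠ r in atTop, ∀ θ, ∃ d ∈ Δ, ‖r⁻¹ • pt r θ - d‖ < ε

lemma exists_angle {P : ℝ → E3} (hP : Function.Periodic P (2 * Real.pi)) (θ θ' : ℝ) :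
    ∃ h, |h| ≤ Real.pi ∧ P θ' = P (θ + h) := by
  obtain ⟨t, ht, e⟩ := hP.exists_mem_Ico Real.two_pi_pos θ' (θ - Real.pi)
  exact ⟨t - θ, abs_le.2 ⟨by linarith [ht.1], by linarith [ht.2]⟩, by rw [e, add_sub_cancel]⟩

/-! ### Cylindrical ends -/

/-- the bounded part of the parametrisation -/
noncomputable def cylY (A : CylEnd) (q : ℝ × ℝ) : E3 := A.pt q.1 q.2 - q.1 • nQ A.Q

lemma cyl_pt (A : CylEnd) (r θ : ℝ) : A.pt r θ = cp A.Q r θ (A.ρ (r, θ)) := by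
  simp [CylEnd.pt, cp, lin_apply]

lemma ev_rho (A : CylEnd) : ∀ᶠ R in atTop, ∀ q ∈ hpl R, 1 ≤ A.ρ q ∧ A.ρ q ≤ 2 := by
  filter_upwards [small_lim A.smooth A.lim (show (0 : ℝ) < 1 / 4 by norm_num)] with R h q hq
  have h1 := abs_le.1 (h q hq).1
  have h2 : 5 / 4 < √2 := by rw [Real.lt_sqrt (by norm_num)]; norm_num
  have h3 : √2 < 7 / 4 := by rw [Real.sqrt_lt' (by norm_num)]; norm_num
  constructor <;> linarith [h1.1, h1.2]

lemma pb_cylY (A : CylEnd) : ∀ᶠ R in atTop, PB 2 (fun _ => 1) (hpl R) (cylY A) := by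
  filter_upwards [pb_lim A.smooth A.lim, ev_rho A, eventually_ge_atTop 4] with R hρ hb hR
  have hU := isOpen_hpl R
  have h0 : ∀ q ∈ hpl R, 4 < q.1 := fun q hq => hR.trans_lt hq
  have h1 : ∀ q ∈ hpl R, 0 < q.1⁻¹ ∧ q.1⁻¹ ≤ 1 / 4 := fun q hq =>
    ⟨inv_pos.2 (by linarith [h0 q hq]), by
      rw [one_div]; exact inv_anti₀ (by norm_num) (h0 q hq).le⟩
  have hu : PB 2 (fun _ => 1) (hpl R) fun q => q.1⁻¹ :=
    PB.boot (f' := fun q => (-(q.1⁻¹ ^ 2)) • ContinuousLinearMap.fst ℝ ℝ ℝ) hU (fun _ => le_rfl)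
      (fun q hq => by
        have hq0 : q.1 ≠ 0 := by linarith [h0 q hq]
        rw [inv_pow]
        exact (hasDerivAt_inv hq0).comp_hasFDerivAt q (hasFDerivAt_fst (𝕜 := ℝ) (p := q)))
      (Bd.of_bound (C := 1 / 4) fun q hq => by
        rw [Real.norm_of_nonneg (h1 q hq).1.le]; exact (h1 q hq).2)
      fun k _ h => (h.pow 2).neg.smul (PB.const hU (fun _ => le_rfl) _)
  have h2 : ∀ q ∈ hpl R, 1 / 2 ≤ 1 - q.1⁻¹ ^ 2 * A.ρ q ^ 2 := fun q hq => by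
    have a1 : q.1⁻¹ * A.ρ q ≤ 1 / 4 * 2 := by
      have := (hb q hq).1
      gcongr
      exacts [(h1 q hq).2, (hb q hq).2]
    have a2 : 0 ≤ q.1⁻¹ * A.ρ q := mul_nonneg (h1 q hq).1.le (by linarith [(hb q hq).1])
    nlinarith
  have hc : PB 2 (fun _ => 1) (hpl R) fun _ => (1 : ℝ) := PB.const hU (fun _ => le_rfl) _
  have h3 := (hc.sub ((hu.pow 2).mul (hρ.pow 2))).sqrt (fun q hq => by linarith [h2 q hq])
    (Bd.of_bound (C := (1 / 2)⁻¹) fun q hq => by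
      rw [norm_inv, Real.norm_of_nonneg (by linarith [h2 q hq])]
      exact inv_anti₀ (by norm_num) (h2 q hq))
  have h4 := (hc.add h3).inv_of_le one_pos fun q _ =>
    le_trans (by linarith [Real.sqrt_nonneg (1 - q.1⁻¹ ^ 2 * A.ρ q ^ 2)]) (le_abs_self _)
  refine (((hρ.smul (pb_snd contDiff_cs cs_periodic R)).prodMk
    ((hu.mul (hρ.pow 2)).mul h4).neg).map (lin A.Q)).congr fun q hq => ?_
  have e := cpsi_add (Q := A.Q) (r := q.1) (by linarith [h0 q hq]) ((0, q.2), A.ρ q - √2)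
    (by simp) (by simpa using (by linarith [h2 q hq] : q.1⁻¹ ^ 2 * A.ρ q ^ 2 < 1))
  simp only [add_zero, add_sub_cancel, cpsi, mul_zero, one_pow, zero_sub] at e
  rw [cylY, cyl_pt, ← e, add_sub_cancel_right, div_eq_mul_inv]

lemma endDir_cyl (A : CylEnd) : EndDir A.pt {A.axis} := by
  refine ⟨isCompact_singleton, fun ε hε => ?_⟩
  obtain ⟨R, hR⟩ := (pb_cylY A).exists
  obtain ⟨M, -, hM⟩ := taylor_pb hR (convex_hpl R)
  filter_upwards [eventually_gt_atTop R, eventually_gt_atTop 0, eventually_gt_atTop (M / ε)]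
    with r h1 h2 h3 θ
  refine ⟨_, rfl, ?_⟩
  have e : r⁻¹ • A.pt r θ - A.axis = r⁻¹ • cylY A (r, θ) := by
    rw [cylY, smul_sub, inv_smul_smul₀ h2.ne']
    simp [CylEnd.axis, nQ, lin_apply]
  rw [e, norm_smul, norm_inv, Real.norm_of_nonneg h2.le, inv_mul_lt_iff₀ h2]
  exact (hM (r, θ) h1).1.trans_lt ((div_lt_iff₀ hε).1 h3)

lemma endBall_cyl (A : CylEnd) (hΦ : Differentiable ℝ Φ)
    (h0 : ∀ᶠ r in atTop, ∀ θ, Φ (A.pt r θ) = 0) : EndBall Φ A.pt := by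
  obtain ⟨R, ⟨hR, hb⟩, h0⟩ :=
    (((pb_cylY A).and (ev_rho A)).and (eventually_forall_ge_atTop.2 h0)).exists
  obtain ⟨M, hM0, hM⟩ := taylor_pb hR (convex_hpl R)
  filter_upwards [eventually_ge_atTop R, eventually_ge_atTop (M * 4 ^ 2)] with T hT1 hT2
  rintro x y hx hy ⟨θ, ex⟩ ⟨θ', ey⟩ -
  obtain ⟨h, hh, e⟩ := exists_angle (P := A.pt ‖y‖)
    (fun t => by simp only [cyl_pt, cp, A.periodic, cs_periodic]) θ θ'
  rw [e] at ey
  have m1 : (‖x‖, θ) ∈ hpl R := hT1.trans_lt hx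
  have m2 : (‖y‖, θ + h) ∈ hpl R := hT1.trans_lt hy
  have hX : HasFDerivAt (fun q : ℝ × ℝ => A.pt q.1 q.2) (fderiv ℝ (cylY A) (‖x‖, θ)
      + (ContinuousLinearMap.fst ℝ ℝ ℝ).smulRight (nQ A.Q)) (‖x‖, θ) := by
    simpa [cylY] using (hR.diffAt m1).hasFDerivAt.fun_add
      ((hasFDerivAt_fst (𝕜 := ℝ) (p := (‖x‖, θ))).smul_const (nQ A.Q))
  have k1 := nor_orth hX (hΦ _) (eventually_of_mem ((isOpen_hpl R).mem_nhds m1)
    fun p hp => h0 _ (le_of_lt hp) _) ((‖y‖, θ + h) - (‖x‖, θ))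
  have k2 := ((hM _ m1).2 _ m2).2
  set Δ : ℝ × ℝ := (‖y‖, θ + h) - (‖x‖, θ) with hΔ
  simp only [ex] at k1
  have k3 : y - x = (cylY A (‖y‖, θ + h) - cylY A (‖x‖, θ) - fderiv ℝ (cylY A) (‖x‖, θ) Δ)
      + (fderiv ℝ (cylY A) (‖x‖, θ) + (ContinuousLinearMap.fst ℝ ℝ ℝ).smulRight (nQ A.Q)) Δ := by
    simp only [cylY, ex, ey, hΔ, add_apply, ContinuousLinearMap.smulRight_apply,
      ContinuousLinearMap.coe_fst', Prod.fst_sub, sub_smul]
    abel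
  have k4 : ‖cs (θ + h) - cs θ‖ ≤ 2 * ‖y - x‖ := by
    have a1 : ∀ r t, (r, t) ∈ hpl R → 1 ≤ ‖hor A.Q (A.pt r t)‖ ∧
        ‖hor A.Q (A.pt r t)‖⁻¹ • hor A.Q (A.pt r t) = cs t := fun r t hm => by
      have := (hb _ hm).1
      rw [cyl_pt, cp, hor_lin, norm_smul, norm_cs, mul_one, Real.norm_of_nonneg (by linarith),
        inv_smul_smul₀ (by linarith)]
      exact ⟨this, rfl⟩
    have a2 := norm_unit_sub_le one_pos (a1 _ _ m2).1 (a1 _ _ m1).1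
    rw [(a1 _ _ m2).2, (a1 _ _ m1).2, ex, ey, ← map_sub, div_one] at a2
    exact a2.trans (by gcongr; exact norm_hor_le _)
  have k5 : |h| ≤ 4 * ‖y - x‖ := by
    have a1 : ‖cs (θ + h) - cs θ‖ ^ 2 = 2 - 2 * Real.cos h := by
      rw [norm_sub_sq_real, norm_cs, norm_cs, inner_cs, add_sub_cancel_left]; ring
    have a2 := Real.cos_le_one_sub_mul_cos_sq hh
    have a3 : 1 / 8 ≤ 2 / Real.pi ^ 2 := by
      rw [le_div_iff₀ (by positivity)]; nlinarith [Real.pi_le_four, Real.pi_pos]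
    refine abs_le_of_sq_le_sq ?_ (by positivity)
    nlinarith [mul_le_mul_of_nonneg_right a3 (sq_nonneg h), norm_nonneg (cs (θ + h) - cs θ),
      mul_self_le_mul_self (norm_nonneg _) k4]
  have k6 : ‖Δ‖ ≤ 4 * ‖y - x‖ := by
    rw [hΔ, Prod.norm_def, max_le_iff]
    exact ⟨(abs_norm_sub_norm_le y x).trans (by linarith [norm_nonneg (y - x)]), by simpa using k5⟩
  conv_lhs => rw [k3, inner_add_right, k1, add_zero]
  calc _ ≤ 1 * (M * (4 * ‖y - x‖) ^ 2) := (abs_real_inner_le_norm _ _).trans (by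
        gcongr
        exacts [norm_nor_le x, k2.trans (by gcongr)])
    _ = M * 4 ^ 2 * ‖y - x‖ ^ 2 := by ring
    _ ≤ _ := by gcongr

end Vale.Agent.P218TB
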