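import Vale.Agent.P218TB.Jet
import Vale.Agent.P218UG.Stack
import Vale.Agent.P218GA.Defs

/-! # P218, block TB: an end which is asymptotically a graph in charts is a global graph -/

open Set Filter Topology Metric
open scoped ContDiff

namespace Vale.Agent.P218TB

open Vale.Agent.P218GA (SmoothLim)

/-- compactness in the periodic variable -/
lemma unif_of_seq {P : ℝ × ℝ → Prop} (hper : ∀ σ θ, P (σ, θ + 2 * Real.pi) ↔ P (σ, θ))
    (h : ∀ (σ θ : ℕ → ℝ) (θ₀ : ℝ), Tendsto σ atTop atTop → Tendsto θ atTop (𝓝 θ₀) →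
      ∃ i, P (σ i, θ i)) : ∃ R : ℝ, ∀ q : ℝ × ℝ, R ≤ q.1 → P q := by
  by_contra hcon
  push Not at hcon
  have h1 : ∀ n : ℕ, ∃ q : ℝ × ℝ, (n : ℝ) ≤ q.1 ∧ q.2 ∈ Icc 0 (2 * Real.pi) ∧ ¬P q := fun n => by
    obtain ⟨q, hq, hP⟩ := hcon n
    have hp : Function.Periodic (fun θ => P (q.1, θ)) (2 * Real.pi) := fun θ => propext (hper _ _)
    obtain ⟨θ, hθ, e⟩ := hp.exists_mem_Ico₀ Real.two_pi_pos q.2
    exact ⟨(q.1, θ), hq, Ico_subset_Icc_self hθ, fun h => hP (by simpa using e ▸ h)⟩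
  choose q hq1 hq2 hq3 using h1
  obtain ⟨θ₀, -, φ, hφ, hlim⟩ := isCompact_Icc.tendsto_subseq hq2
  obtain ⟨i, hi⟩ := h (fun i => (q (φ i)).1) (fun i => (q (φ i)).2) θ₀
    (tendsto_atTop_mono (fun i => hq1 (φ i))
      (tendsto_natCast_atTop_atTop.comp hφ.tendsto_atTop)) hlim
  exact hq3 _ hi

/-- defining functions near the points `(σ i, θ₀, 0)` which converge smoothly -/
def ChartSeq (Z : ℝ × ℝ → ℝ → Prop) (σ : ℕ → ℝ) (θ₀ : ℝ) : Prop :=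
  ∃ (G : ℕ → (ℝ × ℝ) × ℝ → ℝ) (G₀ : (ℝ × ℝ) × ℝ → ℝ) (δ : ℝ), 0 < δ ∧
    (∀ᶠ q in 𝓝 ((0, θ₀) : ℝ × ℝ), G₀ (q, 0) = 0) ∧ fderiv ℝ G₀ ((0, θ₀), 0) (0, 1) ≠ 0 ∧
    (∀ᶠ i in atTop, ∀ p ∈ ball (((0, θ₀), 0) : (ℝ × ℝ) × ℝ) δ,
      ContDiffAt ℝ ∞ (G i) p ∧ (Z (σ i + p.1.1, p.1.2) p.2 ↔ G i p = 0)) ∧
    ∀ n, ∀ y₀ ∈ ball (((0, θ₀), 0) : (ℝ × ℝ) × ℝ) δ, ∀ y : ℕ → (ℝ × ℝ) × ℝ,
      Tendsto y atTop (𝓝 y₀) → JT n atTop G y G₀ y₀

lemma hasDerivAt_vert {G : (ℝ × ℝ) × ℝ → ℝ} {q : ℝ × ℝ} {a : ℝ}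
    (h : DifferentiableAt ℝ G (q, a)) :
    HasDerivAt (fun b => G (q, b)) (fderiv ℝ G (q, a) (0, 1)) a :=
  HasFDerivAt.comp_hasDerivAt (l := G) a h.hasFDerivAt
    ((hasDerivAt_const a q).prodMk (hasDerivAt_id a))

lemma exists_sign_change {g : ℝ → ℝ} {c : ℝ} (h : HasDerivAt g c 0) (h0 : g 0 = 0) (hc : c ≠ 0)
    {η : ℝ} (hη : 0 < η) : ∃ b, 0 < b ∧ b < η ∧ g (-b) * g b < 0 := by
  have h1 := (hasDerivAt_iff_tendsto_slope_zero.1 h).mul_const c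
  have h2 := h1.eventually (lt_mem_nhds (mul_self_pos.2 hc))
  simp only [zero_add, h0, sub_zero, smul_eq_mul] at h2
  have h3 : Tendsto (fun b : ℝ => -b) (𝓝[>] 0) (𝓝[≠] 0) := by
    refine tendsto_nhdsWithin_iff.2 ⟨?_, ?_⟩
    · simpa using (continuous_neg.tendsto (0 : ℝ)).mono_left nhdsWithin_le_nhds
    · filter_upwards [self_mem_nhdsWithin] with b hb
      simpa using (ne_of_gt hb)
  obtain ⟨b, ⟨k1, k2⟩, k3⟩ := (((h2.filter_mono (nhdsGT_le_nhdsNE 0)).and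
    (h3.eventually h2)).and (Ioo_mem_nhdsGT hη)).exists
  refine ⟨b, k3.1, k3.2, ?_⟩
  have hb := inv_pos.2 k3.1
  rw [inv_neg] at k2
  have k4 : 0 < g b * c := by
    rw [mul_assoc] at k1; exact (mul_pos_iff_of_pos_left hb).1 k1
  have k5 : g (-b) * c < 0 := by
    by_contra hcon
    nlinarith [mul_nonneg hb.le (not_lt.1 hcon)]
  by_contra hcon
  nlinarith [mul_nonneg (not_lt.1 hcon) (mul_self_nonneg c), mul_pos k4 (neg_pos.2 k5)]

variable {Z : ℝ × ℝ → ℝ → Prop} {σ θ : ℕ → ℝ} {θ₀ ε : ℝ}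

lemma tendsto_base (hθ : Tendsto θ atTop (𝓝 θ₀)) {a : ℕ → ℝ} {a₀ : ℝ}
    (ha : Tendsto a atTop (𝓝 a₀)) :
    Tendsto (fun i => ((((0 : ℝ), θ i), a i) : (ℝ × ℝ) × ℝ)) atTop (𝓝 ((0, θ₀), a₀)) :=
  (tendsto_const_nhds.prodMk_nhds hθ).prodMk_nhds ha

lemma mem_base {δ t a : ℝ} (ht : |t - θ₀| < δ) (ha : |a| < δ) :
    ((((0 : ℝ), t), a) : (ℝ × ℝ) × ℝ) ∈ ball (((0, θ₀), 0) : (ℝ × ℝ) × ℝ) δ := by
  simp [Prod.dist_eq, Real.dist_eq, ht, ha]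

lemma ChartSeq.exists_zero (h : ChartSeq Z σ θ₀) (hθ : Tendsto θ atTop (𝓝 θ₀)) (hε : 0 < ε) :
    ∀ᶠ i in atTop, ∃ a, |a| < ε ∧ Z (σ i, θ i) a := by
  obtain ⟨G, G₀, δ, hδ, h0, hd, hG, hJ⟩ := h
  have h1 := (hJ 1 _ (mem_ball_self hδ) _ tendsto_const_nhds).cd0.differentiableAt (by simp)
  obtain ⟨b, b0, b1, b2⟩ := exists_sign_change (hasDerivAt_vert h1) h0.self_of_nhds hd
    (lt_min hδ hε)
  have bδ := b1.trans_le (min_le_left _ _)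
  have bε := b1.trans_le (min_le_right _ _)
  have k1 := (hJ 0 _ (mem_base (by simpa using hδ) (by rwa [abs_neg, abs_of_pos b0])) _
    (tendsto_base hθ (tendsto_const_nhds (x := -b)))).val
  have k2 := (hJ 0 _ (mem_base (by simpa using hδ) (by rwa [abs_of_pos b0])) _
    (tendsto_base hθ (tendsto_const_nhds (x := b)))).val
  filter_upwards [hG, (k1.mul k2).eventually (gt_mem_nhds b2),
    hθ.eventually (ball_mem_nhds θ₀ hδ)] with i k3 k4 k5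
  have k6 : ∀ a ∈ Icc (-b) b, ((((0 : ℝ), θ i), a) : (ℝ × ℝ) × ℝ) ∈ ball _ δ := fun a ha =>
    mem_base k5 ((abs_le.2 ha).trans_lt bδ)
  have k7 : ContinuousOn (fun a => G i ((0, θ i), a)) (Icc (-b) b) := fun a ha =>
    (hasDerivAt_vert ((k3 _ (k6 a ha)).1.differentiableAt (by simp))).continuousAt.continuousWithinAt
  have k8 : ∃ a ∈ Icc (-b) b, G i ((0, θ i), a) = 0 := by
    rcases mul_neg_iff.1 k4 with k | k
    · exact intermediate_value_Icc' (by linarith) k7 ⟨k.2.le, k.1.le⟩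
    · exact intermediate_value_Icc (by linarith) k7 ⟨k.1.le, k.2.le⟩
  obtain ⟨a, ha, e⟩ := k8
  exact ⟨a, (abs_le.2 ha).trans_lt bε, by simpa using (k3 _ (k6 a ha)).2.2 e⟩

lemma ChartSeq.unique (h : ChartSeq Z σ θ₀) (hθ : Tendsto θ atTop (𝓝 θ₀)) {a a' : ℕ → ℝ}
    (ha : Tendsto a atTop (𝓝 0)) (ha' : Tendsto a' atTop (𝓝 0)) (h1 : ∀ i, Z (σ i, θ i) (a i))
    (h2 : ∀ i, Z (σ i, θ i) (a' i)) (hlt : ∀ i, a i < a' i) : False := by
  obtain ⟨G, G₀, δ, hδ, -, hd, hG, hJ⟩ := h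
  have k1 : ∀ᶠ i in atTop, ∃ b, b ∈ Ioo (a i) (a' i) ∧ fderiv ℝ (G i) ((0, θ i), b) (0, 1) = 0 := by
    filter_upwards [hG, hθ.eventually (ball_mem_nhds θ₀ hδ), ha.eventually (ball_mem_nhds 0 hδ),
      ha'.eventually (ball_mem_nhds 0 hδ)] with i k3 k5 k8 k9
    rw [Real.dist_eq, sub_zero, abs_lt] at k8 k9
    have k6 : ∀ b ∈ Icc (a i) (a' i), ((((0 : ℝ), θ i), b) : (ℝ × ℝ) × ℝ) ∈ ball _ δ := fun b hb =>
      mem_base k5 (abs_lt.2 ⟨by linarith [hb.1], by linarith [hb.2]⟩)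
    have k7 := fun b hb => hasDerivAt_vert ((k3 _ (k6 b hb)).1.differentiableAt (by simp))
    refine exists_hasDerivAt_eq_zero (hlt i)
      (fun b hb => (k7 b hb).continuousAt.continuousWithinAt) ?_
      fun b hb => k7 b (Ioo_subset_Icc_self hb)
    rw [(k3 _ (k6 _ (left_mem_Icc.2 (hlt i).le))).2.1 (by simpa using h1 i),
      (k3 _ (k6 _ (right_mem_Icc.2 (hlt i).le))).2.1 (by simpa using h2 i)]
  obtain ⟨b, hb⟩ := k1.choice
  have k2 : Tendsto b atTop (𝓝 0) := tendsto_of_tendsto_of_tendsto_of_le_of_le' ha ha'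
    (hb.mono fun i hi => hi.1.1.le) (hb.mono fun i hi => hi.1.2.le)
  have k3 := ((hJ 1 _ (mem_ball_self hδ) _ (tendsto_base hθ k2)).fderiv.map
    (ContinuousLinearMap.apply ℝ ℝ ((0, 1) : (ℝ × ℝ) × ℝ))).val
  exact hd (tendsto_nhds_unique k3 (tendsto_const_nhds.congr' (hb.mono fun i hi => hi.2.symm)))

lemma ChartSeq.jets (h : ChartSeq Z σ θ₀) (hσ : Tendsto σ atTop atTop)
    (hθ : Tendsto θ atTop (𝓝 θ₀)) {u : ℝ × ℝ → ℝ} {R : ℝ}
    (hu : ∀ q : ℝ × ℝ, R ≤ q.1 → |u q| < ε ∧ ∀ a, |a| < ε → (Z q a ↔ a = u q))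
    (h0 : Tendsto (fun i => u (σ i, θ i)) atTop (𝓝 0)) :
    (∀ᶠ i in atTop, ContDiffAt ℝ ∞ u (σ i, θ i)) ∧
      ∀ n, Tendsto (fun i => iteratedFDeriv ℝ n u (σ i, θ i)) atTop (𝓝 0) := by
  obtain ⟨G, G₀, δ, hδ, h1, hd, hG, hJ⟩ := h
  set a : ℕ → ℝ × ℝ → ℝ := fun i q => u ((σ i, 0) + q) with ha
  have e0 : ∀ i, a i (0, θ i) = u (σ i, θ i) := fun i => by simp [ha]
  have k0 := tendsto_base hθ h0
  have k1 := ((hJ 1 _ (mem_ball_self hδ) _ k0).fderiv.map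
    (ContinuousLinearMap.apply ℝ ℝ ((0, 1) : (ℝ × ℝ) × ℝ))).val.eventually_ne hd
  have k2 : ∀ᶠ i in atTop, ContDiffAt ℝ ∞ (a i) (0, θ i) ∧
      ∀ᶠ w in 𝓝 ((0, θ i) : ℝ × ℝ), G i (w, a i w) = 0 := by
    filter_upwards [hG, k1, k0.eventually (ball_mem_nhds _ hδ), hσ.eventually_gt_atTop R]
      with i k3 k4 k5 k6
    obtain ⟨k7, k8⟩ := hu (σ i, θ i) k6.le
    have k9 : G i ((0, θ i), u (σ i, θ i)) = 0 :=
      (k3 _ k5).2.1 (by simpa using (k8 _ k7).2 rfl)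
    obtain ⟨φ, φ1, φ2, φ3⟩ := P218UG.exists_implicit (by simp) (k3 _ k5).1 k9 k4
    have c1 : Tendsto (fun q => (q, φ q)) (𝓝 (0, θ i)) (𝓝 ((0, θ i), u (σ i, θ i))) :=
      tendsto_id.prodMk_nhds (φ2 ▸ φ1.continuousAt.tendsto)
    have c2 : ∀ᶠ q : ℝ × ℝ in 𝓝 (0, θ i), R < σ i + q.1 :=
      continuousAt_const.eventually_lt (by fun_prop) (by simpa using k6)
    have c3 : ∀ᶠ q : ℝ × ℝ in 𝓝 (0, θ i), |φ q| < ε :=
      φ1.continuousAt.abs.eventually_lt continuousAt_const (by rwa [φ2])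
    have c4 : ∀ᶠ q : ℝ × ℝ in 𝓝 (0, θ i), a i q = φ q ∧ G i (q, φ q) = 0 := by
      filter_upwards [c1.eventually φ3, c1.eventually (isOpen_ball.mem_nhds k5), c2, c3]
        with q d1 d2 d3 d4
      have d5 := d1.2 rfl
      have e : ((σ i, 0) + q : ℝ × ℝ) = (σ i + q.1, q.2) := by ext <;> simp
      refine ⟨?_, d5⟩
      rw [ha]
      simp only [e]
      exact (((hu (σ i + q.1, q.2) d3.le).2 _ d4).1 ((k3 _ d2).2.2 d5)).symm
    exact ⟨φ1.congr_of_eventuallyEq (c4.mono fun q hq => hq.1),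
      c4.mono fun q hq => by rw [hq.1]; exact hq.2⟩
  have e1 : ∀ i, ((σ i, 0) + (0, θ i) : ℝ × ℝ) = (σ i, θ i) := fun i => by simp
  refine ⟨k2.mono fun i hi => ?_, fun n => ?_⟩
  · have := ContDiffAt.comp (g := a i) (f := fun q : ℝ × ℝ => q - (σ i, 0)) (σ i, θ i)
      (by simpa using hi.1) (by fun_prop)
    exact this.congr_of_eventuallyEq (.of_forall fun q => by simp [ha])
  · have k3 := JT.implicit (n := n) (a := a) (a₀ := fun _ => 0) (x := fun i => (0, θ i))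
      (y := (0, θ₀)) (by simpa only [e0] using hJ (n + 1) _ (mem_ball_self hδ) _ k0)
      (tendsto_const_nhds.prodMk_nhds hθ)
      (k2.mono fun i hi => ⟨hi.1.of_le (by simp), hi.2⟩) contDiffAt_const h1
      (by simpa only [e0] using h0) hd
    have k4 := k3.lim n (Nat.le_succ n)
    simp only [ha, iteratedFDeriv_comp_add_left, e1] at k4
    simpa using k4

/-- **The global graph.** -/
theorem endGraph (hε : 0 < ε) (hper : ∀ σ θ a, Z (σ, θ + 2 * Real.pi) a ↔ Z (σ, θ) a)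
    (hC : ∀ (σ : ℕ → ℝ) (θ₀ : ℝ), Tendsto σ atTop atTop → ChartSeq Z σ θ₀)
    (h0 : ∀ (σ θ a : ℕ → ℝ) (θ₀ : ℝ), Tendsto σ atTop atTop → Tendsto θ atTop (𝓝 θ₀) →
      (∀ i, |a i| < ε ∧ Z (σ i, θ i) (a i)) → Tendsto a atTop (𝓝 0)) :
    ∃ (u : ℝ × ℝ → ℝ) (R : ℝ), ContDiff ℝ ∞ u ∧ (∀ σ θ, u (σ, θ + 2 * Real.pi) = u (σ, θ)) ∧
      SmoothLim u 0 ∧ ∀ q : ℝ × ℝ, R ≤ q.1 → |u q| < ε ∧ ∀ a, |a| < ε → (Z q a ↔ a = u q) := by
  obtain ⟨R₁, h1⟩ := unif_of_seq (P := fun q => ∃ a, |a| < ε ∧ Z q a)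
    (fun σ θ => by simp only [hper]) fun σ θ θ₀ hσ hθ => ((hC σ θ₀ hσ).exists_zero hθ hε).exists
  obtain ⟨R₂, h2⟩ := unif_of_seq
    (P := fun q => ∀ a a', |a| < ε → |a'| < ε → Z q a → Z q a' → ¬a < a')
    (fun σ θ => by simp only [hper]) fun σ θ θ₀ hσ hθ => by
      by_contra hcon
      push Not at hcon
      choose a a' k1 k2 k3 k4 k5 using hcon
      exact (hC σ θ₀ hσ).unique hθ (h0 σ θ a θ₀ hσ hθ fun i => ⟨k1 i, k3 i⟩)
        (h0 σ θ a' θ₀ hσ hθ fun i => ⟨k2 i, k4 i⟩) k3 k4 k5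
  set u : ℝ × ℝ → ℝ := fun q => Classical.epsilon fun a => |a| < ε ∧ Z q a with hu
  have hup : ∀ σ θ, u (σ, θ + 2 * Real.pi) = u (σ, θ) := fun σ θ => by simp only [hu, hper]
  have h3 : ∀ q : ℝ × ℝ, max R₁ R₂ ≤ q.1 → |u q| < ε ∧ ∀ a, |a| < ε → (Z q a ↔ a = u q) := by
    intro q hq
    have k : |u q| < ε ∧ Z q (u q) := Classical.epsilon_spec (h1 q (le_of_max_le_left hq))
    refine ⟨k.1, fun a ha => ⟨fun hZ => le_antisymm ?_ ?_, fun e => e ▸ k.2⟩⟩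
    · exact not_lt.1 (h2 q (le_of_max_le_right hq) _ _ k.1 ha k.2 hZ)
    · exact not_lt.1 (h2 q (le_of_max_le_right hq) _ _ ha k.1 hZ k.2)
  have h4 : ∀ (σ θ : ℕ → ℝ) (θ₀ : ℝ), Tendsto σ atTop atTop → Tendsto θ atTop (𝓝 θ₀) →
      (∀ᶠ i in atTop, ContDiffAt ℝ ∞ u (σ i, θ i)) ∧
        ∀ n, Tendsto (fun i => iteratedFDeriv ℝ n u (σ i, θ i)) atTop (𝓝 0) := by
    intro σ θ θ₀ hσ hθ
    refine (hC σ θ₀ hσ).jets hσ hθ h3 ?_
    have k := h0 (fun i => max (σ i) (max R₁ R₂)) θ (fun i => u (max (σ i) (max R₁ R₂), θ i)) θ₀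
      (tendsto_atTop_mono (fun i => le_max_left _ _) hσ) hθ fun i => by
        have := h3 (max (σ i) (max R₁ R₂), θ i) (le_max_right _ _)
        exact ⟨this.1, (this.2 _ this.1).2 rfl⟩
    refine k.congr' ?_
    filter_upwards [hσ.eventually_ge_atTop (max R₁ R₂)] with i hi
    rw [max_eq_left hi]
  have hsh : (fun q : ℝ × ℝ => u (q + (0, 2 * Real.pi))) = u := by
    funext q
    rw [← hup q.1 q.2]; congr 1; ext <;> simp
  have e1 : ∀ σ θ : ℝ, ((σ, θ) + (0, 2 * Real.pi) : ℝ × ℝ) = (σ, θ + 2 * Real.pi) := by simp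
  obtain ⟨R₃, h5⟩ := unif_of_seq (P := fun q => ContDiffAt ℝ ∞ u q) (fun σ θ => by
    constructor
    · intro h
      rw [← hsh]
      exact ContDiffAt.comp (g := u) (f := fun q : ℝ × ℝ => q + (0, 2 * Real.pi)) _
        (by rwa [e1]) (by fun_prop)
    · intro h
      have := ContDiffAt.comp (g := u) (f := fun q : ℝ × ℝ => q - (0, 2 * Real.pi))
        (σ, θ + 2 * Real.pi) (by simpa using h) (by fun_prop)
      refine this.congr_of_eventuallyEq (.of_forall fun q => ?_)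
      simp only [Function.comp_apply]
      conv_rhs => rw [← hsh]
      simp) fun σ θ θ₀ hσ hθ => (h4 σ θ θ₀ hσ hθ).1.exists
  set R := max (max R₁ R₂) R₃ with hR
  set v : ℝ × ℝ → ℝ := fun q => Real.smoothTransition (q.1 - (R + 1)) * u q with hv
  have h6 : ∀ q : ℝ × ℝ, R + 2 ≤ q.1 → v q = u q := fun q hq => by
    rw [hv]; simp only; rw [Real.smoothTransition.one_of_one_le (by linarith), one_mul]
  refine ⟨v, R + 2, contDiff_iff_contDiffAt.2 fun q => ?_, fun σ θ => by simp only [hv, hup],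
    fun n η hη => ?_, fun q hq => ?_⟩
  · rcases lt_or_ge q.1 (R + 1) with hq | hq
    · refine (contDiffAt_const (c := (0 : ℝ))).congr_of_eventuallyEq ?_
      filter_upwards [continuousAt_fst.eventually_lt continuousAt_const hq] with p hp
      rw [hv]; simp only; rw [Real.smoothTransition.zero_of_nonpos (by linarith), zero_mul]
    · exact (Real.smoothTransition.contDiffAt.comp q (by fun_prop)).mul
        (h5 q (by linarith [le_max_right (max R₁ R₂) R₃]))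
  · obtain ⟨R₄, h7⟩ := unif_of_seq (P := fun q => ‖iteratedFDeriv ℝ n u q‖ ≤ η)
      (fun σ θ => by rw [← e1, ← iteratedFDeriv_comp_add_right, hsh]) fun σ θ θ₀ hσ hθ =>
        (((h4 σ θ θ₀ hσ hθ).2 n).norm.eventually (ge_mem_nhds (by simpa using hη))).exists
    refine ⟨max R₄ (R + 3), fun p hp => ?_⟩
    have k : (fun q => v q - 0) =ᶠ[𝓝 p] u := by
      filter_upwards [continuousAt_const.eventually_lt continuousAt_fst
        (show R + 2 < p.1 by linarith [le_of_max_le_right hp])] with q hq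
      rw [sub_zero, h6 q hq.le]
    rw [(k.iteratedFDeriv ℝ n).eq_of_nhds]
    exact h7 p (le_of_max_le_left hp)
  · rw [h6 q hq]
    exact h3 q (by linarith [le_max_left (max R₁ R₂) R₃])

end Vale.Agent.P218TB
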