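import Vale.Agent.P218TB.Cone
import Vale.Agent.P218UA.Props3

/-! # P218, block TB: the ends in the form used by the main theorem -/

open Set Filter Topology Metric
open scoped RealInnerProductSpace ContDiff

namespace Vale.Agent.P218TB

open Vale.Agent.P218UA Vale.Agent.P218UG
open Vale.Agent.P218GA (CylEnd ConeEnd Link HasCylConeEnds)

/-- a compact regular curve in the sphere is a finite union of closed curves -/
def LoopsStmt : Prop :=
  ∀ (Γ Ω : Set E3) (f : E3 → ℝ), IsCompact Γ → IsOpen Ω → Γ ⊆ Ω → ContDiff ℝ ∞ f →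
    (∀ x ∈ Ω, x ∈ Γ ↔ ‖x‖ = 1 ∧ f x = 0) →
    (∀ x ∈ Γ, gradient f x ≠ 0 ∧ ⟪gradient f x, x⟫ = 0) →
    ∃ (l : ℕ) (L : Fin l → Link), (∀ j j' θ θ', (L j).γ θ = (L j').γ θ' → j = j') ∧
      Γ = ⋃ j, range (L j).γ

theorem format_of_loops (hl : LoopsStmt) : FormatStmt := by
  intro W D hW h
  obtain ⟨Ω, F, h1, h2, h3, h4, h5⟩ := exists_link_fun hW.toIsSurf h
  set S := {x | W x = 0}
  obtain ⟨l, L, hL1, hL2⟩ := hl _ Ω F (isCompact_link h) h1 h2 h3 h4 h5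
  have hL : ∀ j θ, (L j).γ θ ∈ link S D := fun j θ => hL2 ▸ mem_iUnion.2 ⟨j, θ, rfl⟩
  choose B hB ρB hρB RB hB1 hB2 using fun j => exists_coneEnd h (L j) (hL j)
  set d : Fin D.card → E3 := fun i => (D.equivFin.symm i : E3) with hd
  have hdD : ∀ i, d i ∈ D := fun i => (D.equivFin.symm i).2
  choose A hA ρA hρA RA hA1 hA2 using fun i =>
    exists_cylEnd (S := S) (h.unit _ (hdD i)) (h.neck _ (hdD i)) (h.cyl _ (hdD i))
  have hγ : ∀ j, (B j).γ = (L j).γ := fun j => by rw [← hB j]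
  have key : ∃ R : ℝ, ∀ x ∈ S, R < ‖x‖ → ‖x‖⁻¹ • x ∈ sphere (0 : E3) 1 →
      x ∈ (⋃ i, range ((A i).pt ‖x‖)) ∪ ⋃ j, range ((B j).pt ‖x‖) := by
    refine (isCompact_sphere (0 : E3) 1).induction_on (p := fun t => ∃ R : ℝ, ∀ x ∈ S, R < ‖x‖ →
      ‖x‖⁻¹ • x ∈ t → x ∈ (⋃ i, range ((A i).pt ‖x‖)) ∪ ⋃ j, range ((B j).pt ‖x‖))
      ⟨0, fun x _ _ hx => hx.elim⟩ (fun s t hst ⟨R, hR⟩ => ⟨R, fun x a b c => hR x a b (hst c)⟩)
      (fun s t ⟨R, hR⟩ ⟨R', hR'⟩ => ⟨max R R', fun x a b c => c.elim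
        (hR x a ((le_max_left _ _).trans_lt b)) (hR' x a ((le_max_right _ _).trans_lt b))⟩)
      fun p hp => ?_
    by_cases hD : p ∈ D
    · obtain ⟨i, rfl⟩ : ∃ i, d i = p := ⟨D.equivFin ⟨p, hD⟩, by simp [hd]⟩
      exact ⟨ball (d i) (ρA i), mem_nhdsWithin_of_mem_nhds (ball_mem_nhds _ (hρA i)), RA i,
        fun x a b c => .inl (mem_iUnion.2 ⟨i, hA2 i x a b (by rwa [← dist_eq_norm])⟩)⟩
    by_cases hp' : p ∈ lim S
    · have : p ∈ link S D := ⟨mem_sphere_zero_iff_norm.1 hp, hp', hD⟩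
      rw [hL2] at this
      obtain ⟨j, θ, rfl⟩ := mem_iUnion.1 this
      exact ⟨ball _ (ρB j), mem_nhdsWithin_of_mem_nhds (ball_mem_nhds _ (hρB j)), RB j,
        fun x a b c => .inr (mem_iUnion.2 ⟨j, hB2 j x a b θ (by rwa [← dist_eq_norm])⟩)⟩
    · simp only [lim, mem_ofPred_eq, not_forall, not_frequently] at hp'
      obtain ⟨U, hU, hs⟩ := hp'
      obtain ⟨R, hR⟩ := eventually_atTop.1
        ((tendsto_inv_atTop_nhdsGT_zero.eventually hs).and (eventually_gt_atTop 0))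
      refine ⟨U, mem_nhdsWithin_of_mem_nhds hU, R, fun x a b c => ?_⟩
      obtain ⟨k1, k2⟩ := hR _ b.le
      exact absurd ⟨_, c, by rwa [inv_inv, smul_inv_smul₀ k2.ne']⟩ k1
  obtain ⟨R, hR⟩ := key
  obtain ⟨R₁, hR₁⟩ := (Set.finite_range RA).bddAbove
  obtain ⟨R₂, hR₂⟩ := (Set.finite_range RB).bddAbove
  refine ⟨D.card, l, A, B, max (max R 0) (max R₁ R₂), fun i i' e => ?_, fun i j θ e => ?_,
    fun j j' θ θ' e => hL1 j j' θ θ' (by rwa [hγ, hγ] at e), fun r hr => ?_⟩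
  · rw [hA, hA] at e
    exact D.equivFin.symm.injective (Subtype.ext e)
  · rw [hA, hγ] at e
    exact (hL j θ).2.2 (e ▸ hdD i)
  · simp only [max_lt_iff] at hr
    refine Subset.antisymm (fun x hx => ?_) (union_subset (iUnion_subset fun i => hA1 i r
      ((hR₁ ⟨i, rfl⟩).trans_lt hr.2.1)) (iUnion_subset fun j => hB1 j r
      ((hR₂ ⟨j, rfl⟩).trans_lt hr.2.2)))
    obtain rfl := mem_sphere_zero_iff_norm.1 hx.2
    exact hR x hx.1 hr.1.1 (by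
      rw [mem_sphere_zero_iff_norm, norm_smul, norm_inv, norm_norm, inv_mul_cancel₀ hr.1.2.ne'])

end Vale.Agent.P218TB
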