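import Vale.Agent.P218TB.Chart
import Vale.Agent.P218UA.Props2

/-! # P218, block TB: the asymptotic cone and its defining function -/

open Set Filter Topology Metric
open scoped RealInnerProductSpace ContDiff

namespace Vale.Agent.P218TB

open Vale.Agent.P218UA Vale.Agent.P218UG
open Vale.Agent.P218GE (inner_grad norm_grad)

/-- gluing of local defining functions with a common sign -/
theorem glue {K Z : Set E3} (hK : IsCompact K) {pos neg : E3 → Prop} (hpn : ∀ x, pos x → ¬neg x)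
    (h : ∀ e ∈ K, ∃ (V : Set E3) (f : E3 → ℝ), IsOpen V ∧ e ∈ V ∧ ∀ x ∈ V, ContDiffAt ℝ ∞ f x ∧
      (x ∈ Z ↔ f x = 0) ∧ (0 < f x → pos x) ∧ (f x < 0 → neg x) ∧ gradient f x ≠ 0) :
    ∃ (Ω : Set E3) (F : E3 → ℝ), IsOpen Ω ∧ K ⊆ Ω ∧ ContDiff ℝ ∞ F ∧
      ∀ x ∈ Ω, (x ∈ Z ↔ F x = 0) ∧ (x ∈ Z → gradient F x ≠ 0) := by
  classical
  choose! V f hV he hf using h
  have h1 : ∀ e, ∃ β : ContDiffBump e, e ∈ K → closedBall e β.rOut ⊆ V e := fun e => by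
    by_cases heK : e ∈ K
    · obtain ⟨r, hr, hb⟩ := nhds_basis_closedBall.mem_iff.1 ((hV e heK).mem_nhds (he e heK))
      exact ⟨⟨r / 2, r, half_pos hr, half_lt_self hr⟩, fun _ => hb⟩
    · exact ⟨default, fun h => absurd h heK⟩
  choose β hβ using h1
  obtain ⟨T, hT, hcov⟩ := hK.elim_nhds_subcover (fun e => ball e (β e).rIn)
    fun e _ => ball_mem_nhds e (β e).rIn_pos
  have hm : ∀ e ∈ T, ∀ y, β e y ≠ 0 → y ∈ V e := fun e he y hy =>
    hβ e (hT e he) (ball_subset_closedBall ((β e).support_eq ▸ hy))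
  set F : E3 → ℝ := fun x => ∑ e ∈ T, β e x * f e x with hF
  have hFc : ContDiff ℝ ∞ F := ContDiff.sum fun e he => contDiff_iff_contDiffAt.2 fun x => by
    by_cases hx : x ∈ tsupport (β e)
    · exact (β e).contDiff.contDiffAt.mul (hf e (hT e he) x (hβ e (hT e he)
        ((β e).tsupport_eq ▸ hx))).1
    · refine (contDiffAt_const (c := (0 : ℝ))).congr_of_eventuallyEq ?_
      filter_upwards [notMem_tsupport_iff_eventuallyEq.1 hx] with y hy
      simp [hy]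
  have hle : ∀ e ∈ T, ∀ y ∈ ball e (β e).rIn, |f e y| ≤ |F y| := fun e he y hy => by
    have k0 : β e y = 1 := (β e).one_of_mem_closedBall (ball_subset_closedBall hy)
    have k1 := hf e (hT e he) y (hm e he y (by rw [k0]; exact one_ne_zero))
    rcases lt_trichotomy (f e y) 0 with h0 | h0 | h0
    · have k2 : ∀ d ∈ T, 0 ≤ -(β d y * f d y) := fun d hd => by
        by_cases hb : β d y = 0
        · simp [hb]
        · have : f d y ≤ 0 := not_lt.1 fun hp =>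
            hpn y ((hf d (hT d hd) y (hm d hd y hb)).2.2.1 hp) (k1.2.2.2.1 h0)
          nlinarith [(β d).nonneg (x := y)]
      have k3 := Finset.single_le_sum k2 he
      rw [Finset.sum_neg_distrib, k0, one_mul] at k3
      rw [abs_of_neg h0]
      exact k3.trans (neg_le_abs _)
    · rw [h0, abs_zero]; exact abs_nonneg _
    · have k2 : ∀ d ∈ T, 0 ≤ β d y * f d y := fun d hd => by
        by_cases hb : β d y = 0
        · simp [hb]
        · exact mul_nonneg (β d).nonneg (not_lt.1 fun hp =>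
            hpn y (k1.2.2.1 h0) ((hf d (hT d hd) y (hm d hd y hb)).2.2.2.1 hp))
      have k3 := Finset.single_le_sum k2 he
      rw [k0, one_mul] at k3
      rw [abs_of_pos h0]
      exact k3.trans (le_abs_self _)
  have hZ : ∀ y ∈ Z, F y = 0 := fun y hy => Finset.sum_eq_zero fun d hd => by
    by_cases hb : β d y = 0
    · simp [hb]
    · rw [(hf d (hT d hd) y (hm d hd y hb)).2.1.1 hy, mul_zero]
  refine ⟨⋃ e ∈ T, ball e (β e).rIn, F, isOpen_biUnion fun e _ => isOpen_ball, hcov, hFc,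
    fun x hx => ?_⟩
  obtain ⟨e, he, hx⟩ := mem_iUnion₂.1 hx
  have k1 := hf e (hT e he) x (hβ e (hT e he)
    (ball_subset_closedBall (ball_subset_ball (β e).rIn_lt_rOut.le hx)))
  refine ⟨⟨hZ x, fun h0 => k1.2.1.2 (by simpa [h0] using hle e he x hx)⟩, fun hxZ h0 => ?_⟩
  have k2 : HasFDerivAt F (0 : E3 →L[ℝ] ℝ) x := by
    have := (hFc.differentiable (by simp) x).hasFDerivAt
    rwa [norm_eq_zero.1 ((norm_grad F x).symm.trans (norm_eq_zero.2 h0))] at this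
  have k3 : HasFDerivAt (f e) (0 : E3 →L[ℝ] ℝ) x := by
    rw [hasFDerivAt_iff_isLittleO] at k2 ⊢
    refine Asymptotics.IsBigO.trans_isLittleO (Asymptotics.IsBigO.of_bound' ?_) k2
    filter_upwards [isOpen_ball.mem_nhds hx] with y hy
    simpa [hZ x hxZ, k1.2.1.1 hxZ] using hle e he y hy
  exact k1.2.2.2.2 (norm_eq_zero.1 (by rw [norm_grad, k3.fderiv, norm_zero]))

/-- the asymptotic cone of `S` -/
def lim (S : Set E3) : Set E3 := {p | ∀ U ∈ 𝓝 p, ∃ᶠ s in 𝓝[>] (0 : ℝ), ∃ x ∈ U, s⁻¹ • x ∈ S}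

variable {S : Set E3}

lemma isClosed_lim : IsClosed (lim S) := by
  refine isClosed_of_closure_subset fun p hp U hU => ?_
  obtain ⟨q, hq, hq'⟩ := mem_closure_iff_nhds.1 hp _ (interior_mem_nhds.2 hU)
  exact hq' U (mem_interior_iff_mem_nhds.1 hq)

lemma smul_mem_lim {p : E3} (hp : p ∈ lim S) {c : ℝ} (hc : 0 < c) : c • p ∈ lim S := by
  intro U hU
  have h1 := hp _ ((continuous_const_smul c).continuousAt.preimage_mem_nhds hU)
  have h2 : Tendsto (fun s : ℝ => c * s) (𝓝[>] 0) (𝓝[>] 0) := by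
    refine tendsto_nhdsWithin_iff.2 ⟨?_, ?_⟩
    · simpa using ((continuous_const_mul c).tendsto (0 : ℝ)).mono_left nhdsWithin_le_nhds
    · filter_upwards [self_mem_nhdsWithin] with s hs using mul_pos hc hs
  refine h2.frequently (h1.mono ?_)
  rintro s ⟨x, hx, hs⟩
  refine ⟨c • x, hx, ?_⟩
  rwa [smul_smul, mul_inv, mul_comm c⁻¹, mul_assoc, inv_mul_cancel₀ hc.ne', mul_one]

lemma smul_mem_lim_iff {p : E3} {c : ℝ} (hc : 0 < c) : c • p ∈ lim S ↔ p ∈ lim S :=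
  ⟨fun h => by simpa [smul_smul, hc.ne'] using smul_mem_lim h (inv_pos.2 hc),
    fun h => smul_mem_lim h hc⟩

lemma mem_lim_of_tendsto {ι : Type} {l : Filter ι} [l.NeBot] {s : ι → ℝ} {x : ι → E3} {p : E3}
    (hs : Tendsto s l (𝓝[>] 0)) (hx : Tendsto x l (𝓝 p)) (h : ∀ᶠ i in l, (s i)⁻¹ • x i ∈ S) :
    p ∈ lim S := fun _ hU =>
  hs.frequently ((h.and (hx.eventually hU)).mono fun i hi => ⟨x i, hi.2, hi.1⟩).frequently

/-- cylindrical directions are isolated -/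
lemma isolated_of_neck {e : E3} (he : ‖e‖ = 1)
    (hneck : ∃ ρ > 0, ∃ R : ℝ, ∀ x ∈ S, R ≤ ‖x‖ → ‖‖x‖⁻¹ • x - e‖ < ρ → ‖gT e x‖ ≤ 2) :
    ∃ ρ > 0, ∀ p ∈ lim S, ‖p‖ = 1 → p ∈ ball e ρ → p = e := by
  obtain ⟨ρ, hρ, R, hn⟩ := hneck
  refine ⟨min ρ 1, by positivity, fun p hp hp1 hd => ?_⟩
  rw [mem_ball, dist_eq_norm, lt_min_iff] at hd
  have h1 : gT e p = 0 := by
    by_contra h0
    have hδ := half_pos (norm_pos_iff.2 h0)
    have c1 : ContinuousAt (fun x : E3 => ‖‖x‖⁻¹ • x - e‖) p :=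
      (((continuous_norm.continuousAt.inv₀ (by simp [hp1])).smul continuousAt_id).sub
        continuousAt_const).norm
    have c2 : Continuous fun x => ‖gT e x‖ := by unfold gT; fun_prop
    have k1 := hp _ (((c1.eventually_lt continuousAt_const (by simpa [hp1] using hd.1)).and
      (continuousAt_const.eventually_lt c2.continuousAt (half_lt_self (norm_pos_iff.2 h0)))).and
      (continuousAt_const.eventually_lt continuous_norm.continuousAt
        (show (1 / 2 : ℝ) < ‖p‖ by rw [hp1]; norm_num)))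
    have k2 : ∀ᶠ s in 𝓝[>] (0 : ℝ), 2 * R ≤ s⁻¹ := tendsto_inv_nhdsGT_zero.eventually_ge_atTop _
    obtain ⟨s, ⟨x, ⟨⟨x1, x2⟩, x3⟩, x4⟩, s1, s2⟩ :=
      (k1.and_eventually (k2.and (Ioo_mem_nhdsGT (half_pos hδ)))).exists
    have hs := inv_pos.2 s2.1
    have e1 : ‖s⁻¹ • x‖ = s⁻¹ * ‖x‖ := by rw [norm_smul, Real.norm_eq_abs, abs_of_pos hs]
    have k3 := hn _ x4 (by rw [e1]; nlinarith) (by
      rwa [e1, smul_smul, mul_inv, mul_right_comm, inv_mul_cancel₀ hs.ne', one_mul])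
    have e2 : gT e (s⁻¹ • x) = s⁻¹ • gT e x := by
      simp only [gT, real_inner_smul_right, smul_sub, smul_smul]
    rw [e2, norm_smul, Real.norm_eq_abs, abs_of_pos hs, inv_mul_le_iff₀ s2.1] at k3
    linarith [s2.2]
  rw [gT, sub_eq_zero] at h1
  have h2 : |⟪e, p⟫| = 1 := by
    have := congrArg norm h1
    rwa [norm_smul, he, hp1, mul_one, eq_comm] at this
  have h3 : ‖p - e‖ ^ 2 < 1 := by nlinarith [norm_nonneg (p - e), hd.2]
  rw [norm_sub_sq_real, hp1, he, real_inner_comm] at h3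
  rw [abs_of_pos (by linarith)] at h2
  rw [h1, h2, one_smul]

/-- the data of the conical alternative -/
structure Con (S : Set E3) (e : E3) (Q : E3 ≃ₗᵢ[ℝ] E3) (ρ s₀ : ℝ) (u : ℝ → E2 → ℝ) : Prop where
  ρpos : 0 < ρ
  spos : 0 < s₀
  gr : ∀ s ∈ Ioo 0 s₀, IsGraph {x | s⁻¹ • x ∈ S} Q e ρ ρ (u s) ∧
    ContDiffOn ℝ ∞ (u s) (ball 0 ρ) ∧ ∀ ξ ∈ ball (0 : E2) ρ, |u s ξ| ≤ 1 / 2 * ρ
  cd0 : ContDiffOn ℝ ∞ (u 0) (ball 0 ρ)
  conv : ∀ k : ℕ, ∃ C : ℝ, ∀ s ∈ Ioo 0 s₀, ∀ ξ ∈ ball (0 : E2) ρ,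
    ‖iteratedFDeriv ℝ k (u s) ξ - iteratedFDeriv ℝ k (u 0) ξ‖ ≤ C * s ^ 2

lemma exists_con {D : Finset E3} (h : EndStruct S D) {e : E3} (he : ‖e‖ = 1) (hD : e ∉ D)
    (hl : e ∈ lim S) : ∃ Q ρ s₀ u, Con S e Q ρ s₀ u := by
  obtain ⟨Q, ρ, s₀, hρ, -, hs, h1 | ⟨u, h1, h2, h3⟩⟩ := h.con e he hD (1 / 2) (by norm_num)
  · obtain ⟨s, ⟨x, hx, hxS⟩, hs'⟩ := ((hl _ (isOpen_cylQ.mem_nhds (self_mem_cylQ (Q := Q) hρ hρ))).and_eventually
      (Ioo_mem_nhdsGT hs)).exists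
    exact absurd (by rwa [pt_coord]) (h1 s hs' _ _ hx.1 hx.2)
  · exact ⟨Q, ρ, s₀, u, hρ, hs, fun s hs => ⟨(h1 s hs).1, (h1 s hs).2.1,
      fun ξ hξ => ((h1 s hs).2.2 ξ hξ).1⟩, h2, h3⟩

variable {e : E3} {Q : E3 ≃ₗᵢ[ℝ] E3} {ρ s₀ : ℝ} {u : ℝ → E2 → ℝ}

lemma Con.unif (h : Con S e Q ρ s₀ u) (k : ℕ) : TendstoUniformlyOn
    (fun s => iteratedFDeriv ℝ k (u s)) (iteratedFDeriv ℝ k (u 0)) (𝓝[>] 0) (ball 0 ρ) := by
  obtain ⟨C, hC⟩ := h.conv k
  refine Metric.tendstoUniformlyOn_iff.2 fun ε hε => ?_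
  have h1 : ∀ᶠ s in 𝓝 (0 : ℝ), C * s ^ 2 < ε :=
    ContinuousAt.eventually_lt (by fun_prop) continuousAt_const (by simpa using hε)
  filter_upwards [Ioo_mem_nhdsGT h.spos, h1.filter_mono nhdsWithin_le_nhds] with s hs h2 ξ hξ
  rw [dist_comm, dist_eq_norm]
  exact (hC s hs ξ hξ).trans_lt h2

lemma Con.close (h : Con S e Q ρ s₀ u) {ε : ℝ} (hε : 0 < ε) : ∀ᶠ s in 𝓝[>] (0 : ℝ),
    ∀ x ∈ cylQ Q e ρ ρ, |gfun Q e (u s) x - gfun Q e (u 0) x| < ε := by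
  filter_upwards [Metric.tendstoUniformlyOn_iff.1 (h.unif 0) ε hε] with s hs x hx
  have := hs (hor Q (x - e)) (by simpa using hx.1)
  rw [iteratedFDeriv_zero_eq_comp, iteratedFDeriv_zero_eq_comp, Function.comp_apply,
    Function.comp_apply, LinearIsometryEquiv.dist_map, Real.dist_eq] at this
  rwa [gfun, gfun, sub_sub_sub_cancel_left]

lemma Con.tendsto (h : Con S e Q ρ s₀ u) {x : E3} (hx : x ∈ cylQ Q e ρ ρ) :
    Tendsto (fun s => gfun Q e (u s) x) (𝓝[>] 0) (𝓝 (gfun Q e (u 0) x)) :=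
  Metric.tendsto_nhds.2 fun _ hε => (h.close hε).mono fun _ hs => hs x hx

lemma Con.mem_lim (h : Con S e Q ρ s₀ u) {x : E3} (hx : x ∈ cylQ Q e ρ ρ) :
    x ∈ lim S ↔ gfun Q e (u 0) x = 0 := by
  constructor
  · intro hl
    by_contra h0
    have hδ := half_pos (abs_pos.2 h0)
    have k1 := hl _ ((continuousAt_const.eventually_lt (cdAt_gfun' h.cd0 hx).continuousAt.abs
      (half_lt_self (abs_pos.2 h0))).and (isOpen_cylQ.mem_nhds hx))
    obtain ⟨s, ⟨y, ⟨y1, y2⟩, y3⟩, s1, s2⟩ :=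
      (k1.and_eventually ((h.close hδ).and (Ioo_mem_nhdsGT h.spos))).exists
    have k2 := s1 y y2
    rw [(graph_mem_iff (h.gr s s2).1 y2).1 y3, zero_sub, abs_neg] at k2
    exact lt_asymm k2 y1
  · intro h0
    refine mem_lim_of_tendsto (l := 𝓝[>] (0 : ℝ)) (x := fun s => x - gfun Q e (u s) x • nQ Q)
      tendsto_id (by simpa [h0] using ((h.tendsto hx).smul_const (nQ Q)).const_sub x) ?_
    filter_upwards [Ioo_mem_nhdsGT h.spos] with s hs
    obtain ⟨k1, k2⟩ := (h.gr s hs).1 _ hx.1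
    have k3 := (k2 _ k1).2 rfl
    have e1 : x - gfun Q e (u s) x • nQ Q = pt Q e (hor Q (x - e)) (u s (hor Q (x - e))) := by
      have a1 := pt_add (Q := Q) (p := e) (hor Q (x - e)) ⟪nQ Q, x - e⟫
      rw [pt_coord] at a1
      rw [pt_add _ (u s _), gfun, sub_smul, eq_sub_of_add_eq a1.symm]
      abel
    rwa [← e1] at k3

lemma pos_of_preconnected {X : Type} [TopologicalSpace X] {A : Set X} (hA : IsPreconnected A)
    {f : X → ℝ} (hf : ContinuousOn f A) (h0 : ∀ x ∈ A, f x ≠ 0) {a b : X} (ha : a ∈ A) (hb : b ∈ A)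
    (h : 0 < f a) : 0 < f b := by
  by_contra hcon
  obtain ⟨z, hz, hz0⟩ := hA.intermediate_value hb ha hf ⟨not_lt.1 hcon, h.le⟩
  exact h0 z hz hz0

/-- the sign of `W` on one side of the graphs -/
lemma Con.side {W : E3 → ℝ} (hW : Continuous W) (hS : ∀ x, x ∈ S ↔ W x = 0)
    (h : Con S e Q ρ s₀ u) {τ : ℝ} (hτ : τ = 1 ∨ τ = -1)
    (h0 : 0 < W ((s₀ / 2)⁻¹ • pt Q e 0 (τ * (3 / 4 * ρ)))) :
    ∀ s ∈ Ioo 0 s₀, ∀ x ∈ cylQ Q e ρ ρ, 0 < τ * gfun Q e (u s) x → 0 < W (s⁻¹ • x) := by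
  intro s hs x hx hp
  have hρ := h.ρpos
  have hs₀ := h.spos
  have hc : Continuous fun z : E2 × ℝ => pt Q e z.1 z.2 := (contDiff_pt (k := 0)).continuous
  have k0 : ∀ s ∈ Ioo 0 s₀, ∀ ξ ∈ ball (0 : E2) ρ, ∀ t, |t| < ρ → t ≠ u s ξ →
      W (s⁻¹ • pt Q e ξ t) ≠ 0 := fun s hs ξ hξ t ht hne h0 =>
    hne ((((h.gr s hs).1 ξ (by simpa using hξ)).2 t ht).1 ((hS _).2 h0))
  have hξ : hor Q (x - e) ∈ ball (0 : E2) ρ := by simpa using hx.1
  have k1 : 0 < W (s⁻¹ • pt Q e (hor Q (x - e)) (τ * (3 / 4 * ρ))) := by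
    refine pos_of_preconnected (A := Ioo 0 s₀ ×ˢ ball (0 : E2) ρ)
      (isPreconnected_Ioo.prod (convex_ball _ _).isPreconnected)
      (f := fun z => W (z.1⁻¹ • pt Q e z.2 (τ * (3 / 4 * ρ)))) ?_ (fun z hz => ?_)
      (a := (s₀ / 2, 0)) (b := (s, hor Q (x - e)))
      ⟨⟨by positivity, by linarith⟩, mem_ball_self hρ⟩ ⟨hs, hξ⟩ h0
    · refine hW.comp_continuousOn ((continuousOn_fst.inv₀ fun z hz => hz.1.1.ne').smul ?_)
      exact (hc.comp (continuous_snd.prodMk continuous_const)).continuousOn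
    · have := abs_le.1 ((h.gr _ hz.1).2.2 _ hz.2)
      refine k0 _ hz.1 _ hz.2 _ ?_ ?_
      · rcases hτ with rfl | rfl <;> rw [abs_lt] <;> constructor <;> linarith
      · rcases hτ with rfl | rfl <;> intro h' <;> linarith
  have k2 := abs_le.1 ((h.gr _ hs).2.2 _ hξ)
  have k3 := abs_lt.1 hx.2
  rw [gfun] at hp
  conv_rhs => rw [← pt_coord Q e x]
  refine pos_of_preconnected (A := uIcc (τ * (3 / 4 * ρ)) ⟪nQ Q, x - e⟫) isPreconnected_uIcc
    (f := fun t => W (s⁻¹ • pt Q e (hor Q (x - e)) t)) ?_ (fun t ht => ?_) left_mem_uIcc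
    right_mem_uIcc k1
  · exact (hW.comp ((hc.comp (continuous_const.prodMk continuous_id)).const_smul s⁻¹)).continuousOn
  · rw [mem_uIcc] at ht
    refine k0 _ hs _ hξ _ ?_ ?_
    · rcases hτ with rfl | rfl <;> rcases ht with ht | ht <;> rw [abs_lt] <;> constructor <;>
        linarith [ht.1, ht.2]
    · rcases hτ with rfl | rfl <;> rcases ht with ht | ht <;> intro h' <;> linarith [ht.1, ht.2]

/-- the two sides of the graphs have opposite signs -/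
lemma Con.sign {W : E3 → ℝ} (hW : IsSurf W) (h : Con {x | W x = 0} e Q ρ s₀ u) :
    ∃ τ : ℝ, (τ = 1 ∨ τ = -1) ∧ ∀ s ∈ Ioo 0 s₀, ∀ x ∈ cylQ Q e ρ ρ,
      (0 < τ * gfun Q e (u s) x → 0 < W (s⁻¹ • x)) ∧ (τ * gfun Q e (u s) x < 0 → W (s⁻¹ • x) < 0) := by
  have hρ := h.ρpos
  have hs : s₀ / 2 ∈ Ioo 0 s₀ := ⟨half_pos h.spos, half_lt_self h.spos⟩
  have hc := hW.smooth.continuous
  have P := fun τ hτ => h.side (W := W) (τ := τ) hc (fun _ => Iff.rfl) hτ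
  have N := fun τ hτ => h.side (W := fun x => -W x) (τ := τ) hc.neg (fun _ => by simp) hτ
  obtain ⟨k1, k2⟩ := (h.gr _ hs).1 0 (by simpa using hρ)
  have k3 := abs_le.1 ((h.gr _ hs).2.2 0 (mem_ball_self hρ))
  have hne : ∀ τ : ℝ, τ = 1 ∨ τ = -1 → W ((s₀ / 2)⁻¹ • pt Q e 0 (τ * (3 / 4 * ρ))) ≠ 0 := by
    intro τ hτ h0
    have := (k2 _ (by rcases hτ with rfl | rfl <;> rw [abs_lt] <;> constructor <;> linarith)).1 h0
    rcases hτ with rfl | rfl <;> linarith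
  have hx₀ : pt Q e 0 (u (s₀ / 2) 0) ∈ cylQ Q e ρ ρ := by
    refine ⟨by simpa [hor_pt] using hρ, ?_⟩
    rwa [real_inner_comm, inner_pt]
  have hW₀ : W ((s₀ / 2)⁻¹ • pt Q e 0 (u (s₀ / 2) 0)) = 0 := (k2 _ k1).2 rfl
  have hno : ∀ c : ℝ, c ≠ 0 → ¬∀ x ∈ cylQ Q e ρ ρ, gfun Q e (u (s₀ / 2)) x ≠ 0 →
      0 < c * W ((s₀ / 2)⁻¹ • x) := fun c hc0 hall => by
    have a1 : IsLocalMin (fun y => c * W y) ((s₀ / 2)⁻¹ • pt Q e 0 (u (s₀ / 2) 0)) := by
      have a2 : ContinuousAt (fun y : E3 => (s₀ / 2) • y) ((s₀ / 2)⁻¹ • pt Q e 0 (u (s₀ / 2) 0)) :=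
        (continuous_const_smul _).continuousAt
      filter_upwards [a2.preimage_mem_nhds (isOpen_cylQ.mem_nhds
        (by rwa [smul_inv_smul₀ hs.1.ne']))] with y hy
      rw [hW₀, mul_zero]
      by_cases h0 : gfun Q e (u (s₀ / 2)) ((s₀ / 2) • y) = 0
      · have := (graph_mem_iff (h.gr _ hs).1 hy).2 h0
        simp only [mem_ofPred_eq, inv_smul_smul₀ hs.1.ne'] at this
        rw [this, mul_zero]
      · have := hall _ hy h0
        rw [inv_smul_smul₀ hs.1.ne'] at this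
        exact this.le
    have a3 := a1.hasFDerivAt_eq_zero
      ((hW.smooth.differentiable (by simp) _).hasFDerivAt.const_mul c)
    have a4 := (hW.eik _ hW₀).self_of_nhds
    rw [norm_grad, (smul_eq_zero.1 a3).resolve_left hc0, norm_zero] at a4
    exact zero_ne_one a4
  rcases lt_or_gt_of_ne (hne 1 (.inl rfl)) with h1 | h1 <;>
    rcases lt_or_gt_of_ne (hne (-1) (.inr rfl)) with h2 | h2
  · refine absurd (fun x hx h0 => ?_) (hno (-1) (by norm_num))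
    rcases lt_or_gt_of_ne h0 with h0 | h0
    · linarith [N (-1) (.inr rfl) (neg_pos.2 h2) _ hs x hx (by linarith)]
    · linarith [N 1 (.inl rfl) (neg_pos.2 h1) _ hs x hx (by linarith)]
  · exact ⟨-1, .inr rfl, fun s hs x hx => ⟨P (-1) (.inr rfl) h2 s hs x hx, fun h0 => by
      linarith [N 1 (.inl rfl) (neg_pos.2 h1) _ hs x hx (by linarith)]⟩⟩
  · exact ⟨1, .inl rfl, fun s hs x hx => ⟨P 1 (.inl rfl) h1 s hs x hx, fun h0 => by
      linarith [N (-1) (.inr rfl) (neg_pos.2 h2) _ hs x hx (by linarith)]⟩⟩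
  · refine absurd (fun x hx h0 => ?_) (hno 1 one_ne_zero)
    rcases lt_or_gt_of_ne h0 with h0 | h0
    · linarith [P (-1) (.inr rfl) h2 _ hs x hx (by linarith)]
    · linarith [P 1 (.inl rfl) h1 _ hs x hx (by linarith)]

end Vale.Agent.P218TB
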