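import Mathlib

/-! # P218, block TB: convergence of jets at moving points -/

open Set Filter Topology Metric
open scoped ContDiff

namespace Vale.Agent.P218TB

variable {ι : Type} {X Y F G H : Type} [NormedAddCommGroup X] [NormedAddCommGroup Y]
  [NormedAddCommGroup F] [NormedAddCommGroup G] [NormedAddCommGroup H] [NormedSpace ℝ X]
  [NormedSpace ℝ Y] [NormedSpace ℝ F] [NormedSpace ℝ G] [NormedSpace ℝ H]

/-- the jets of order `≤ n` of `f i` at `x i` converge to those of `g` at `y` -/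
structure JT (n : ℕ) (l : Filter ι) (f : ι → X → F) (x : ι → X) (g : X → F) (y : X) : Prop where
  cd : ∀ᶠ i in l, ContDiffAt ℝ n (f i) (x i)
  cd0 : ContDiffAt ℝ n g y
  lim : ∀ k ≤ n, Tendsto (fun i => iteratedFDeriv ℝ k (f i) (x i)) l (𝓝 (iteratedFDeriv ℝ k g y))

variable {n : ℕ} {l : Filter ι} {f : ι → X → F} {x : ι → X} {g : X → F} {y : X}

lemma tendsto_iter_zero : Tendsto (fun i => iteratedFDeriv ℝ 0 (f i) (x i)) l
    (𝓝 (iteratedFDeriv ℝ 0 g y)) ↔ Tendsto (fun i => f i (x i)) l (𝓝 (g y)) := by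
  simp only [iteratedFDeriv_zero_eq_comp, Function.comp_apply]
  exact ((continuousMultilinearCurryFin0 ℝ X F).symm.toHomeomorph.isInducing.tendsto_nhds_iff).symm

lemma tendsto_iter_succ {k : ℕ} : Tendsto (fun i => iteratedFDeriv ℝ (k + 1) (f i) (x i)) l
    (𝓝 (iteratedFDeriv ℝ (k + 1) g y)) ↔
    Tendsto (fun i => iteratedFDeriv ℝ k (fderiv ℝ (f i)) (x i)) l
      (𝓝 (iteratedFDeriv ℝ k (fderiv ℝ g) y)) := by
  simp only [iteratedFDeriv_succ_eq_comp_right, Function.comp_apply]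
  exact ((continuousMultilinearCurryRightEquiv' ℝ k X F).symm.toHomeomorph.isInducing.tendsto_nhds_iff).symm

lemma JT.val (h : JT n l f x g y) : Tendsto (fun i => f i (x i)) l (𝓝 (g y)) :=
  tendsto_iter_zero.1 (h.lim 0 (Nat.zero_le _))

lemma JT.zero (h1 : ∀ᶠ i in l, ContDiffAt ℝ (0 : ℕ) (f i) (x i)) (h2 : ContDiffAt ℝ (0 : ℕ) g y)
    (h : Tendsto (fun i => f i (x i)) l (𝓝 (g y))) : JT 0 l f x g y :=
  ⟨h1, h2, fun k hk => by obtain rfl : k = 0 := by omega
                          exact tendsto_iter_zero.2 h⟩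

lemma JT.of_le {m : ℕ} (h : JT n l f x g y) (hm : m ≤ n) : JT m l f x g y :=
  ⟨h.cd.mono fun _ hi => hi.of_le (by exact_mod_cast hm), h.cd0.of_le (by exact_mod_cast hm),
    fun k hk => h.lim k (hk.trans hm)⟩

lemma JT.fderiv (h : JT (n + 1) l f x g y) : JT n l (fun i => fderiv ℝ (f i)) x (fderiv ℝ g) y :=
  ⟨h.cd.mono fun _ hi => hi.fderiv_right (by push_cast; rfl),
    h.cd0.fderiv_right (by push_cast; rfl),
    fun k hk => tendsto_iter_succ.1 (h.lim (k + 1) (by omega))⟩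

lemma JT.congr {f' : ι → X → F} {g' : X → F} (h : JT n l f x g y)
    (h1 : ∀ᶠ i in l, f' i =ᶠ[𝓝 (x i)] f i) (h2 : g' =ᶠ[𝓝 y] g) : JT n l f' x g' y := by
  refine ⟨(h.cd.and h1).mono fun i hi => hi.1.congr_of_eventuallyEq hi.2,
    h.cd0.congr_of_eventuallyEq h2, fun k hk => ?_⟩
  rw [(h2.iteratedFDeriv ℝ k).eq_of_nhds]
  exact (h.lim k hk).congr' (h1.mono fun i hi => (hi.iteratedFDeriv ℝ k).eq_of_nhds.symm)

lemma JT.congr_pt {x' : ι → X} (h : JT n l f x g y) (h1 : ∀ᶠ i in l, x' i = x i) :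
    JT n l f x' g y :=
  ⟨(h.cd.and h1).mono fun i hi => hi.2 ▸ hi.1, h.cd0, fun k hk =>
    (h.lim k hk).congr' (h1.mono fun i hi => by simp only [hi])⟩

lemma ev_hasFDerivAt {u : X → F} {z : X} (h : ContDiffAt ℝ (n + 1 : ℕ) u z) :
    ∀ᶠ w in 𝓝 z, HasFDerivAt u (fderiv ℝ u w) w :=
  (h.eventually (by simp)).mono fun _ hw => (hw.differentiableAt (by simp)).hasFDerivAt

/-- successor with given derivatives -/
lemma JT.succ {f' : ι → X → X →L[ℝ] F} {g' : X → X →L[ℝ] F}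
    (h1 : ∀ᶠ i in l, ∀ᶠ z in 𝓝 (x i), HasFDerivAt (f i) (f' i z) z)
    (h2 : ∀ᶠ z in 𝓝 y, HasFDerivAt g (g' z) z)
    (h0 : Tendsto (fun i => f i (x i)) l (𝓝 (g y))) (h : JT n l f' x g' y) :
    JT (n + 1) l f x g y := by
  have h3 : JT n l (fun i => _root_.fderiv ℝ (f i)) x (_root_.fderiv ℝ g) y :=
    h.congr (h1.mono fun i hi => hi.mono fun z hz => hz.fderiv) (h2.mono fun z hz => hz.fderiv)
  refine ⟨(h1.and h.cd).mono fun i hi => ?_, ?_, fun k hk => ?_⟩
  · push_cast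
    exact contDiffAt_succ_iff_hasFDerivAt.2 ⟨f' i, hi.1.exists_mem, hi.2⟩
  · push_cast
    exact contDiffAt_succ_iff_hasFDerivAt.2 ⟨g', h2.exists_mem, h.cd0⟩
  · rcases k with _ | k
    · exact tendsto_iter_zero.2 h0
    · exact tendsto_iter_succ.2 (h3.lim k (by omega))

lemma JT.ev (h : JT (n + 1) l f x g y) :
    ∀ᶠ i in l, ∀ᶠ z in 𝓝 (x i), HasFDerivAt (f i) (_root_.fderiv ℝ (f i) z) z :=
  h.cd.mono fun _ hi => ev_hasFDerivAt hi

lemma JT.ev0 (h : JT (n + 1) l f x g y) : ∀ᶠ z in 𝓝 y, HasFDerivAt g (_root_.fderiv ℝ g z) z :=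
  ev_hasFDerivAt h.cd0

/-- a fixed function at converging points -/
lemma JT.fixed (hg : ContDiffAt ℝ n g y) (hx : Tendsto x l (𝓝 y)) : JT n l (fun _ => g) x g y :=
  ⟨hx.eventually (hg.eventually (by simp)), hg, fun _ hk =>
    (hg.continuousAt_iteratedFDeriv (by exact_mod_cast hk)).tendsto.comp hx⟩

lemma JT.const {c : ι → F} {c₀ : F} (h : Tendsto c l (𝓝 c₀)) :
    JT n l (fun i _ => c i) x (fun _ => c₀) y := by
  induction n generalizing F with
  | zero => exact JT.zero (.of_forall fun _ => contDiffAt_const) contDiffAt_const h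
  | succ n ih =>
    exact JT.succ (f' := fun _ _ => 0) (g' := fun _ => 0)
      (.of_forall fun i => .of_forall fun z => hasFDerivAt_const _ z)
      (.of_forall fun z => hasFDerivAt_const _ z) h (ih tendsto_const_nhds)

lemma JT.add {f' : ι → X → F} {g' : X → F} (h : JT n l f x g y) (h' : JT n l f' x g' y) :
    JT n l (fun i z => f i z + f' i z) x (fun z => g z + g' z) y := by
  induction n generalizing F with
  | zero => exact JT.zero ((h.cd.and h'.cd).mono fun i hi => hi.1.add hi.2) (h.cd0.add h'.cd0)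
              (h.val.add h'.val)
  | succ n ih =>
    exact JT.succ ((h.ev.and h'.ev).mono fun i hi => (hi.1.and hi.2).mono fun z hz =>
      hz.1.add hz.2) ((h.ev0.and h'.ev0).mono fun z hz => hz.1.add hz.2) (h.val.add h'.val)
      (ih h.fderiv h'.fderiv)

lemma tendsto_bilin (B : F →L[ℝ] G →L[ℝ] H) {u : ι → F} {v : ι → G} {u₀ : F} {v₀ : G}
    (hu : Tendsto u l (𝓝 u₀)) (hv : Tendsto v l (𝓝 v₀)) :
    Tendsto (fun i => B (u i) (v i)) l (𝓝 (B u₀ v₀)) :=
  (B.continuous₂.tendsto (u₀, v₀)).comp (hu.prodMk_nhds hv)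

lemma JT.bilin (B : F →L[ℝ] G →L[ℝ] H) {f' : ι → X → G} {g' : X → G} (h : JT n l f x g y)
    (h' : JT n l f' x g' y) :
    JT n l (fun i z => B (f i z) (f' i z)) x (fun z => B (g z) (g' z)) y := by
  induction n generalizing F G H with
  | zero =>
    exact JT.zero ((h.cd.and h'.cd).mono fun i hi =>
      (B.contDiff.contDiffAt.comp _ hi.1).clm_apply hi.2)
      ((B.contDiff.contDiffAt.comp _ h.cd0).clm_apply h'.cd0) (tendsto_bilin B h.val h'.val)
  | succ n ih =>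
    exact JT.succ ((h.ev.and h'.ev).mono fun i hi => (hi.1.and hi.2).mono fun z hz =>
      B.hasFDerivAt_of_bilinear hz.1 hz.2)
      ((h.ev0.and h'.ev0).mono fun z hz => B.hasFDerivAt_of_bilinear hz.1 hz.2)
      (tendsto_bilin B h.val h'.val)
      ((ih (B.precompR X) (h.of_le (Nat.le_succ n)) h'.fderiv).add
        (ih (B.precompL X) h.fderiv (h'.of_le (Nat.le_succ n))))

lemma JT.map (L : F →L[ℝ] G) (h : JT n l f x g y) :
    JT n l (fun i z => L (f i z)) x (fun z => L (g z)) y :=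
  JT.bilin (ContinuousLinearMap.apply ℝ G) h (JT.const (c := fun _ => L) tendsto_const_nhds)

lemma JT.neg (h : JT n l f x g y) : JT n l (fun i z => -f i z) x (fun z => -g z) y :=
  h.map (-ContinuousLinearMap.id ℝ F)

lemma JT.sub {f' : ι → X → F} {g' : X → F} (h : JT n l f x g y) (h' : JT n l f' x g' y) :
    JT n l (fun i z => f i z - f' i z) x (fun z => g z - g' z) y := by
  simpa only [sub_eq_add_neg] using h.add h'.neg

lemma JT.smul {c : ι → X → ℝ} {d : X → ℝ} (hc : JT n l c x d y) (h : JT n l f x g y) :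
    JT n l (fun i z => c i z • f i z) x (fun z => d z • g z) y :=
  JT.bilin (ContinuousLinearMap.lsmul ℝ ℝ : ℝ →L[ℝ] F →L[ℝ] F) hc h

lemma JT.prodMk {f' : ι → X → G} {g' : X → G} (h : JT n l f x g y) (h' : JT n l f' x g' y) :
    JT n l (fun i z => (f i z, f' i z)) x (fun z => (g z, g' z)) y := by
  simpa using (h.map (ContinuousLinearMap.inl ℝ F G)).add (h'.map (ContinuousLinearMap.inr ℝ F G))

lemma JT.clm_comp {A : ι → X → G →L[ℝ] H} {A₀ : X → G →L[ℝ] H} {B : ι → X → F →L[ℝ] G}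
    {B₀ : X → F →L[ℝ] G} (hA : JT n l A x A₀ y) (hB : JT n l B x B₀ y) :
    JT n l (fun i z => (A i z).comp (B i z)) x (fun z => (A₀ z).comp (B₀ z)) y :=
  JT.bilin (ContinuousLinearMap.compL ℝ F G H) hA hB

lemma JT.id (hx : Tendsto x l (𝓝 y)) : JT n l (fun _ z => z) x (fun z => z) y :=
  JT.fixed contDiffAt_id hx

lemma JT.comp {u : ι → F → G} {u₀ : F → G} (hu : JT n l u (fun i => f i (x i)) u₀ (g y))
    (h : JT n l f x g y) : JT n l (fun i z => u i (f i z)) x (fun z => u₀ (g z)) y := by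
  induction n generalizing G with
  | zero =>
    exact JT.zero ((hu.cd.and h.cd).mono fun i hi => hi.1.comp _ hi.2) (hu.cd0.comp _ h.cd0) hu.val
  | succ n ih =>
    refine JT.succ ((hu.ev.and (h.ev.and h.cd)).mono fun i hi => ?_) ?_ hu.val
      ((ih hu.fderiv (h.of_le (Nat.le_succ n))).clm_comp h.fderiv)
    · filter_upwards [hi.2.2.continuousAt.tendsto.eventually hi.1, hi.2.1] with z h1 h2
      exact h1.comp z h2
    · filter_upwards [h.cd0.continuousAt.tendsto.eventually hu.ev0, h.ev0] with z h1 h2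
      exact h1.comp z h2

/-- composition with a fixed function -/
lemma JT.comp_fixed {u : F → G} (hu : ContDiffAt ℝ n u (g y)) (h : JT n l f x g y) :
    JT n l (fun i z => u (f i z)) x (fun z => u (g z)) y :=
  JT.comp (JT.fixed hu h.val) h

/-- the derivative of an implicit function -/
lemma ev_implicit {Φ : X × ℝ → ℝ} {a : X → ℝ} {z : X} (hΦ : ContDiffAt ℝ 1 Φ (z, a z))
    (ha : ContDiffAt ℝ 1 a z) (h0 : ∀ᶠ w in 𝓝 z, Φ (w, a w) = 0)
    (hd : fderiv ℝ Φ (z, a z) (0, 1) ≠ 0) :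
    ∀ᶠ w in 𝓝 z, HasFDerivAt a (-((fderiv ℝ Φ (w, a w) (0, 1))⁻¹ •
      (fderiv ℝ Φ (w, a w)).comp (ContinuousLinearMap.inl ℝ X ℝ))) w := by
  have hc : ContinuousAt (fun w => (w, a w)) z := continuousAt_id.prodMk ha.continuousAt
  have h1 : ContinuousAt (fun w => fderiv ℝ Φ (w, a w) (0, 1)) z :=
    (ContinuousAt.comp (g := fderiv ℝ Φ) (f := fun w => (w, a w)) (hΦ.continuousAt_fderiv one_ne_zero) hc).clm_apply
      continuousAt_const
  filter_upwards [h1.eventually_ne hd, h0.eventually_nhds, ev_hasFDerivAt (n := 0) ha,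
    hc.tendsto.eventually (ev_hasFDerivAt (n := 0) hΦ)] with w k1 k2 k3 k4
  have k5 := (HasFDerivAt.comp (g := Φ) w k4 ((hasFDerivAt_id w).prodMk k3)).unique
    ((hasFDerivAt_const (0 : ℝ) w).congr_of_eventuallyEq k2)
  refine k3.congr_fderiv (ContinuousLinearMap.ext fun v => ?_)
  have k6 := congrArg (fun L : X →L[ℝ] ℝ => L v) k5
  have e : ((v, fderiv ℝ a w v) : X × ℝ) = (v, 0) + fderiv ℝ a w v • (0, 1) := by simp
  simp only [ContinuousLinearMap.comp_apply, ContinuousLinearMap.prod_apply,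
    ContinuousLinearMap.id_apply, e, map_add, map_smul, smul_eq_mul, zero_apply] at k6
  simp only [neg_apply, smul_apply,
    ContinuousLinearMap.comp_apply, ContinuousLinearMap.inl_apply, smul_eq_mul]
  field_simp
  linarith

/-- **Convergence of implicit functions.** -/
lemma JT.implicit {Φ : ι → X × ℝ → ℝ} {Φ₀ : X × ℝ → ℝ} {a : ι → X → ℝ} {a₀ : X → ℝ}
    (hΦ : JT (n + 1) l Φ (fun i => (x i, a i (x i))) Φ₀ (y, a₀ y)) (hx : Tendsto x l (𝓝 y))
    (ha : ∀ᶠ i in l, ContDiffAt ℝ 1 (a i) (x i) ∧ ∀ᶠ w in 𝓝 (x i), Φ i (w, a i w) = 0)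
    (ha₀ : ContDiffAt ℝ 1 a₀ y) (h0 : ∀ᶠ w in 𝓝 y, Φ₀ (w, a₀ w) = 0)
    (hv : Tendsto (fun i => a i (x i)) l (𝓝 (a₀ y)))
    (hd : _root_.fderiv ℝ Φ₀ (y, a₀ y) (0, 1) ≠ 0) : JT (n + 1) l a x a₀ y := by
  have h1 : ∀ᶠ i in l, _root_.fderiv ℝ (Φ i) (x i, a i (x i)) (0, 1) ≠ 0 :=
    ((hΦ.fderiv.map (ContinuousLinearMap.apply ℝ ℝ ((0, 1) : X × ℝ))).val).eventually_ne hd
  have hone : ((1 : ℕ) : WithTop ℕ∞) ≤ (n + 1 : ℕ) := by exact_mod_cast Nat.le_add_left 1 n
  have key : ∀ k ≤ n + 1, JT k l a x a₀ y := by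
    intro k hk
    induction k with
    | zero => exact JT.zero (ha.mono fun i hi => hi.1.of_le (by simp)) (ha₀.of_le (by simp)) hv
    | succ k ih =>
      have h2 := JT.comp (f := fun i z => (z, a i z)) (x := x) (g := fun z => (z, a₀ z)) (y := y)
        (hΦ.fderiv.of_le (by omega : k ≤ n)) ((JT.id hx).prodMk (ih (by omega)))
      refine JT.succ ((h1.and (ha.and hΦ.cd)).mono fun i hi =>
        ev_implicit (hi.2.2.of_le hone) hi.2.1.1 hi.2.1.2 hi.1)
        (ev_implicit (hΦ.cd0.of_le hone) ha₀ h0 hd) hv ?_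
      have h3 := h2.map (ContinuousLinearMap.apply ℝ ℝ ((0, 1) : X × ℝ))
      have h4 := h3.comp_fixed (u := fun t : ℝ => t⁻¹) (by exact contDiffAt_inv ℝ hd)
      have h5 := h2.clm_comp (JT.const (c := fun _ => ContinuousLinearMap.inl ℝ X ℝ)
        tendsto_const_nhds)
      exact (h4.smul h5).neg
  exact key _ le_rfl

/-- from locally uniform convergence -/
lemma JT.of_unif {U : Set X} (hU : IsOpen U) (hy : y ∈ U) (hx : Tendsto x l (𝓝 y))
    (hf : ∀ᶠ i in l, ContDiffOn ℝ ∞ (f i) U) (hg : ContDiffOn ℝ ∞ g U)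
    (h : ∀ k : ℕ, TendstoUniformlyOn (fun i => iteratedFDeriv ℝ k (f i)) (iteratedFDeriv ℝ k g)
      l U) : JT n l f x g y := by
  have hn : (n : WithTop ℕ∞) ≤ ∞ := by exact_mod_cast le_top
  have hx' := hx.eventually (hU.mem_nhds hy)
  have hg' := hg.contDiffAt (hU.mem_nhds hy)
  refine ⟨(hf.and hx').mono fun i hi => (hi.1.contDiffAt (hU.mem_nhds hi.2)).of_le hn,
    hg'.of_le hn, fun k _ => (h k).tendsto_comp ?_ (tendsto_nhdsWithin_iff.2 ⟨hx, hx'⟩)⟩
  exact (hg'.continuousAt_iteratedFDeriv (by exact_mod_cast le_top)).continuousWithinAt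

end Vale.Agent.P218TB
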